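import Vale.Agent.P352Y.W0

/-!
# P352Y, tools for step 5: jets on the diagonal, extension with prescribed contact terms
-/

set_option linter.all false

noncomputable section

open Filter Topology Set Metric
open scoped SchwartzMap ContDiff LineDeriv

namespace Vale.Agent.P352Y

open Vale.Agent.P352 Vale.Agent.P352.GF Vale.Agent.P352X Api4

variable {B G : Type*} [Fintype B] [DecidableEq B] [NormedAddCommGroup G] [NormedSpace ℂ G]

omit [DecidableEq B] in
lemma iter_mon_ne {k j : ℕ} (γ : Fin k → B) (h : j ≠ k) : iteratedFDeriv ℝ j (mon γ) 0 = 0 := by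
  have h1 := congrFun (iteratedFDeriv_comp_const_smul (2 : ℝ)
    ((smooth_mon γ).of_le (ST.le_inf j))) 0
  have h2 : (fun z => mon γ ((2 : ℝ) • z)) = fun z => ((2 : ℝ) ^ k) • mon γ z :=
    funext fun z => by rw [mon_smul]; simp
  rw [h2, iteratedFDeriv_const_smul_apply' ((smooth_mon γ).of_le (ST.le_inf j)).contDiffAt,
    smul_zero, ← sub_eq_zero, ← sub_smul] at h1
  exact (smul_eq_zero.1 h1).resolve_left (sub_ne_zero.2 fun a =>
    h (pow_right_injective₀ two_pos (by norm_num) a).symm)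

lemma iter_mon {k : ℕ} (γ γ' : Fin k → B) :
    iteratedFDeriv ℝ k (mon γ) 0 (fun i => Pi.single (γ' i) 1) =
      ∑ σ : Equiv.Perm (Fin k), if γ' = γ ∘ σ.symm then 1 else 0 := by
  let M := (ContinuousMultilinearMap.mkPiAlgebra ℝ (Fin k) ℂ).compContinuousLinearMap fun i =>
    Complex.ofRealCLM ∘L ContinuousLinearMap.proj (R := ℝ) (φ := fun _ : B => ℝ) (γ i)
  refine (M.iteratedFDeriv_comp_diagonal 0 _).trans (Finset.sum_congr rfl fun σ _ => ?_)
  show ∏ i, (((Pi.single (γ' (σ i)) 1 : B → ℝ) (γ i) : ℝ) : ℂ) = _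
  split_ifs with h
  · simp [h]
  · by_contra a
    refine h (funext fun i => ?_)
    have := Finset.prod_ne_zero_iff.1 a (σ.symm i) (Finset.mem_univ _)
    by_contra b
    rw [Equiv.apply_symm_apply,
      Pi.single_eq_of_ne (show γ (σ.symm i) ≠ γ' i from Ne.symm b)] at this
    exact this rfl

lemma sum_iter_mon {M : Type*} [AddCommGroup M] [Module ℂ M] {k : ℕ} (X : (Fin k → B) → M)
    (hX : ∀ γ (σ : Equiv.Perm (Fin k)), X (γ ∘ σ) = X γ) (γ : Fin k → B) :
    ∑ γ', (k.factorial : ℂ)⁻¹ •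
      iteratedFDeriv ℝ k (mon γ) 0 (fun i => Pi.single (γ' i) 1) • X γ' = X γ := by
  simp only [← Finset.smul_sum, iter_mon, Finset.sum_smul, ite_smul, one_smul, zero_smul]
  rw [Finset.sum_comm]
  simp only [Finset.sum_ite_eq', Finset.mem_univ, if_true, hX, Finset.sum_const,
    Finset.card_univ, Fintype.card_perm, Fintype.card_fin]
  rw [← Nat.cast_smul_eq_nsmul ℂ, smul_smul, inv_mul_cancel₀ (by exact_mod_cast k.factorial_ne_zero),
    one_smul]

/-- the restriction to the diagonal -/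
def dgL : S2 →L[ℂ] Sch :=
  SchwartzMap.compCLM ℂ ((ContinuousLinearMap.id ℝ V).prod (.id ℝ V)).hasTemperateGrowth
    ⟨1, 1, fun x => by simp⟩

/-- the jets on the diagonal -/
def jet {k : ℕ} (γ : Fin k → Ix) : S2 →L[ℂ] Sch := dgL ∘L f2.dd γ

lemma single_eq (m : Ix) : (Pi.single m 1 : V) = bas m 1 := funext fun n => by
  simp [bas, Pi.single_apply]

lemma jet_apply {k : ℕ} (γ : Fin k → Ix) (F : S2) (z : V) : jet γ F z = Str.pdA γ F (z, z) := by
  refine (f2.dd_apply γ F (z, z)).trans ?_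
  simp only [single_eq]
  rfl

lemma jet_eq {k : ℕ} (γ : Fin k → Ix) (F : S2) (z : V) :
    jet γ F z = iteratedFDeriv ℝ k (fun u : V => F (z + u, z)) 0 fun i => Pi.single (γ i) 1 := by
  have : (fun u : V => F (z + u, z)) =
      (fun q => F ((z, z) + q)) ∘ ContinuousLinearMap.inl ℝ V V := funext fun u => by simp
  rw [this, ContinuousLinearMap.iteratedFDeriv_comp_right (f := fun q => F ((z, z) + q)) _
    ((F.smooth ⊤).comp (contDiff_const.add contDiff_id)) _ (ST.le_inf k),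
    iteratedFDeriv_comp_add_left, map_zero, add_zero]
  exact f2.dd_apply γ F (z, z)

lemma jet_off {k : ℕ} (γ : Fin k → Ix) {F : S2} (h : OffD F) : jet γ F = 0 :=
  SchwartzMap.ext fun z => f2.dd_zero γ (h z)

lemma jet_ten2 {k : ℕ} (γ : Fin k → Ix) (φ f : Sch) :
    jet γ (ten2 φ f) = iteratedFDeriv ℝ k φ 0 (fun i => Pi.single (γ i) 1) • f :=
  SchwartzMap.ext fun z => by
    have : (fun u : V => ten2 φ f (z + u, z)) = fun u => f z • φ u := funext fun u => by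
      simp [mul_comm]
    rw [jet_eq, this, iteratedFDeriv_const_smul_apply' ((φ.smooth ⊤).of_le (ST.le_inf k)).contDiffAt]
    simp [mul_comm]

lemma jet_mon {k N : ℕ} (h : k < N) (γ' : Fin k → Ix) (γ : Fin N → Ix) {H F : S2}
    (e : ∀ z, F z = mon γ (z.1 - z.2) * H z) : jet γ' F = 0 := SchwartzMap.ext fun z => by
  have : (fun u : V => F (z + u, z)) = fun u => mon γ u * H (z + u, z) := funext fun u => by
    rw [e, add_sub_cancel_left]
  have h1 := norm_iteratedFDeriv_mul_le (smooth_mon γ) (g := fun u => H (z + u, z))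
    ((H.smooth ⊤).comp (by fun_prop)) 0 (ST.le_inf k)
  rw [Finset.sum_eq_zero fun i hi => by
    rw [iter_mon_ne γ (by have := Finset.mem_range.1 hi; omega), norm_zero, mul_zero, zero_mul],
    norm_le_zero_iff] at h1
  rw [jet_eq, this, h1]
  rfl

lemma cut_eq (χ : Sch) {k : ℕ} (γ : Fin k → Ix) (F : S2) :
    f2.cut χ 0 (f2.dd γ F) = ten2 χ (jet γ F) := SchwartzMap.ext fun z => by
  rw [Fr.cut_apply, show f2.Lt 0 z = (z.2, z.2) from Prod.ext (by simp [Fr.Lt_apply, f2])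
    (by simp [Fr.Lt_apply, f2])]
  rfl

variable {χ : V → ℂ}

lemma dc_mon (hχ : Dc χ) {k : ℕ} (γ : Fin k → Ix) : Dc fun u => mon γ u * χ u :=
  dc_mul_left (smooth_mon γ) hχ

/-- **Extension with prescribed contact terms.** -/
theorem ext5 (w0 : S2 →L[ℂ] G) (N : ℕ) (hχ : Dc χ) (h1 : ∀ᶠ u in 𝓝 (0 : V), χ u = 1)
    (Dt : ∀ k : ℕ, (Fin k → Ix) → Sch →L[ℂ] G)
    (hD : ∀ k γ (σ : Equiv.Perm (Fin k)), Dt k (γ ∘ σ) = Dt k γ) : ∃ w : S2 →L[ℂ] G,
      (∀ F, OffD F → w F = w0 F) ∧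
      (∀ k < N, ∀ γ f, w (ten2 (sch fun u => mon γ u * χ u) f) = Dt k γ f) ∧
      ∀ (γ : Fin N → Ix) (H F : S2), (∀ z, F z = mon γ (z.1 - z.2) * H z) → w F = w0 F := by
  let X : ∀ k : ℕ, (Fin k → Ix) → Sch →L[ℂ] G := fun k γ =>
    Dt k γ - w0 ∘L ten2 (sch fun u => mon γ u * χ u)
  refine ⟨w0 + ∑ k ∈ Finset.range N, ∑ γ, (k.factorial : ℂ)⁻¹ • (X k γ ∘L jet γ),
    fun F hF => ?_, fun k hk γ f => ?_, fun γ H F e => ?_⟩ <;>
    simp only [ContinuousLinearMap.add_apply, ContinuousLinearMap.sum_apply,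
      ContinuousLinearMap.smul_apply, ContinuousLinearMap.comp_apply]
  · simp [jet_off _ hF]
  · have e : ∀ j, iteratedFDeriv ℝ j (sch fun u => mon γ u * χ u) 0 = iteratedFDeriv ℝ j (mon γ) 0 :=
      fun j => (EventuallyEq.iteratedFDeriv ℝ (h1.mono fun u hu => by
        rw [sch_apply (dc_mon hχ γ), hu, mul_one]) j).self_of_nhds
    simp only [jet_ten2, e, map_smul]
    rw [Finset.sum_eq_single k (fun j _ hj => by simp [iter_mon_ne γ hj])
      fun a => (a (Finset.mem_range.2 hk)).elim, sum_iter_mon (fun γ => X k γ f) fun γ σ => by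
        simp only [X, hD, show mon (γ ∘ σ) = mon γ from funext fun u =>
          Equiv.prod_comp σ fun i => (u (γ i) : ℂ)]]
    simp [X]
  · rw [Finset.sum_eq_zero fun k hk => by simp [jet_mon (Finset.mem_range.1 hk) _ γ e], add_zero]

/-- **Structure theorem**, for all Schwartz functions -/
theorem expand2 {Λ : S2 →L[ℂ] G} (h : ∀ F, OffD F → Λ F = 0) {N : ℕ}
    (hv : ∀ (γ : Fin (N + 1) → Ix) (H F : S2), (∀ z, F z = mon γ (z.1 - z.2) * H z) → Λ F = 0)
    (hχ : Dc χ) (h1 : ∀ᶠ u in 𝓝 (0 : V), χ u = 1) (F : S2) :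
    Λ F = ∑ k ∈ Finset.range (N + 1), ∑ γ : Fin k → Ix,
      (k.factorial : ℂ)⁻¹ • Λ (ten2 (sch fun u => mon γ u * χ u) (jet γ F)) := by
  rw [Fr.Off.expand (φ := f2) (fun F hF => h F (away_iff.1 hF)) hv (sch χ)
    (by rwa [coe_sch hχ]) F]
  refine Finset.sum_congr rfl fun k _ => Finset.sum_congr rfl fun γ _ => ?_
  congr 2
  ext z
  rw [f2.mul_apply (temp_mon γ), cut_eq, ten2_apply, ten2_apply, sch_apply hχ,
    sch_apply (dc_mon hχ γ), one_smul, mul_assoc]
  rfl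

/-- a distribution that vanishes off the diagonal kills the functions of high vanishing order -/
theorem exists_van {Λ : S2 →L[ℂ] G} {C : ℝ} {m : ℕ} (h : ∀ F, OffD F → Λ F = 0) (hC : 0 ≤ C)
    (hb : ∀ f, ‖Λ f‖ ≤ C * ST.sn (V × V) ℂ m f) (γ : Fin (m + 1) → Ix) (H F : S2)
    (e : ∀ z, F z = mon γ (z.1 - z.2) * H z) : Λ F = 0 :=
  Fr.Off.van (φ := f2) (fun F hF => h F (away_iff.1 hF)) hC hb γ H F e

theorem expand' {Λ : S2 →L[ℂ] G} (h : ∀ F, OffD F → Λ F = 0) {N : ℕ}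
    (hv : ∀ (γ : Fin (N + 1) → Ix) (H F : S2), (∀ z, F z = mon γ (z.1 - z.2) * H z) → Λ F = 0)
    (hχ : Dc χ) (h1 : ∀ᶠ u in 𝓝 (0 : V), χ u = 1)
    (h0 : ∀ k ≤ N, ∀ (γ : Fin k → Ix) f, Λ (ten2 (sch fun u => mon γ u * χ u) f) = 0) : Λ = 0 := by
  ext1 F
  rw [expand2 h hv hχ h1 F]
  exact Finset.sum_eq_zero fun k hk => Finset.sum_eq_zero fun γ _ => by
    rw [h0 k (Nat.lt_succ_iff.1 (Finset.mem_range.1 hk)), smul_zero]

end Vale.Agent.P352Y
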