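import Vale.Agent.P352Y.WL.Gro
import Vale.Agent.P352X.R.KD.B
import Vale.Agent.P352X.R.JC.A2
import Vale.Agent.P352.BW.H728.Cv

/-!
# P352Y: the weight lemma
-/

noncomputable section

open MeasureTheory Filter Topology Complex Set Finset
open scoped Real SchwartzMap BoundedContinuousFunction

namespace Vale.Agent.P352Y.Wl

open Vale.Agent.P352 Vale.Agent.P352.GF Vale.Agent.P352.BW Vale.Agent.P352X Two
open Vale.Agent.P352.H496 (Wdg)
open Vale.Agent.P132 (ModData)
open UniformSpace (Completion)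

/-- the Fourier transforms of the Gauss kernels -/
def fz (a : ℝ) (z : ℂ) : ℝ →ᵇ ℂ := .ofNormedAddCommGroup
  (fun h => ga (I * (a * h)) * cexp (I * (a * h) * z)) (by unfold ga; fun_prop) (∫ s, ‖gz z s‖)
  fun h => by
    rw [← integral_gz]
    refine (norm_integral_le_integral_norm _).trans_eq (integral_congr_ae (.of_forall fun s => ?_))
    simp [norm_exp]

/-- **the KMS condition for the Gauss transform** -/
theorem kms {H : Type*} [NormedAddCommGroup H] [InnerProductSpace ℂ H] [CompleteSpace H]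
    {M : VonNeumannAlgebra H} {ξ ψ ψ' : H} (E : ModData M ξ) (h : Pr M ξ ψ ψ') (z : ℂ) :
    Gs (fun s => E.U (-s / (2 * π)) ψ) (z + π * I) =
      Gs (fun s => E.U (-s / (2 * π)) (E.J ψ')) z := by
  have e : ∀ z v, Gs (fun s => E.U (-s / (2 * π)) v) z = E.Th (fz (-(2 * π)⁻¹) z) v := fun z v => by
    rw [Cv.th_int E _ (cont_gz z) (by simpa using int_gz z 0) (-(2 * π)⁻¹) fun h => ?_]
    · simp only [Gs, div_eq_inv_mul, mul_neg, neg_mul]
    · refine (integral_gz _ _).symm.trans (integral_congr_ae (.of_forall fun s => ?_))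
      push_cast
      ring_nf
  rw [e, e]
  refine (h.kms E fun r => ?_).symm
  simp only [fz, BoundedContinuousFunction.coe_ofNormedAddCommGroup, mul_add, Complex.exp_add]
  rw [← mul_assoc, mul_comm]
  have := ofReal_ne_zero.2 Real.pi_ne_zero
  push_cast
  congr 2
  field_simp
  simp

variable {D : Type*} [NormedAddCommGroup D] [InnerProductSpace ℂ D] {c : Ctx D} {d : ℕ}
  {om om' : Sch →L[ℂ] Completion D}

lemma Hom.key {d : ℝ} (h : Hom c d om) (f g : Sch) (s : ℝ) : c.bt.Phi (ft (ev f)) (Bo c.Q s (om g)) =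
    Bo c.Q s (c.bt.Phi (ft (ev g)) (om (bS s f))) := by
  rw [h.rel, Phi_W (k := scp (rexp (-s)) (rexp s)) (meas_scp _ _) ((grp_row c).bo_ut s)
    (fun p y => md_scp_l p y) (bd_ft ⟨_, rfl⟩)]
  simp only [ft_bS, scp_scp _ (Real.exp_nonneg _) (Real.exp_nonneg _), ee, mul_comm (rexp (-s)),
    scp_one]

lemma Hom.lim (h : Hom c d om) (f : Sch) {G : ℕ → Sch} (b : ∀ n p, ‖ft (ev (G n)) p‖ ≤ 1)
    (l : ∀ p, Tendsto (fun n => ft (ev (G n)) p) atTop (𝓝 1)) (z : ℂ) :
    Tendsto (fun n => c.bt.Phi (ft (ev f)) (Gs (fun s => Bo c.Q s (om (G n))) z)) atTop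
      (𝓝 (Gs (fun s => Bo c.Q s (om (bS s f))) z)) := by
  have u := (grp_row c).ugB
  have i : ∀ v, Integrable fun s => gz z s • Bo c.Q s v := fun v =>
    ((int_gz z 0).norm.mul_const ‖v‖).mono' ((cont_gz z).smul (u.cont v)).aestronglyMeasurable
      (.of_forall fun s => by simp [norm_smul, u.norm])
  simp only [Gs, ← ContinuousLinearMap.integral_comp_comm _ (i _), map_smul]
  refine tendsto_integral_of_dominated_convergence _ (fun n => ((cont_gz z).smul
    ((c.bt.Phi _).continuous.comp (u.cont _))).aestronglyMeasurable) ((h.gr f).int z).norm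
    (fun n => .of_forall fun s => ?_) (.of_forall fun s => ?_)
  · simp only [h.key, norm_smul, u.norm]
    gcongr
    exact (c.bt.norm_le (bd_ft ⟨_, rfl⟩) zero_le_one _ (.of_forall (b n))).trans_eq (one_mul _)
  · simp only [h.key]
    have := c.bt.tendsto_Phi (fun n => bd_ft ⟨G n, rfl⟩) (SN.Bd.const 1) (v := om (bS s f))
      (.of_forall fun n => .of_forall (b n)) (.of_forall l)
    rw [c.bt.const_apply, one_smul] at this
    exact (((Bo c.Q s).continuous.tendsto _).comp this).const_smul _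

/-- approximate identities in the wedge -/
lemma ex_G : ∃ G : ℕ → Sch, (∀ n, HasCompactSupport (G n) ∧ tsupport (G n) ⊆ Wdg va vb 0) ∧
    (∀ n p, ‖ft (ev (G n)) p‖ ≤ 1) ∧ ∀ p, Tendsto (fun n => ft (ev (G n)) p) atTop (𝓝 1) := by
  obtain ⟨x, hx⟩ := wdg_nonempty null_va null_vb (md_ab ▸ one_pos) 0
  obtain ⟨u, hu, s1, u0, i1⟩ := Ap.ex_rho (volume : Measure V) ((wdg_open _ _ _).mem_nhds hx)
  have p : ∀ n : ℕ, (0 : ℝ) < n + 1 := fun n => by positivity
  have hU := Api4.coe_sch (Api4.dc_cx hu)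
  set U := sch (cx u)
  have e : ∀ (n : ℕ) q, ft (ev (((((n + 1) ^ 2) ^ 2 : ℝ) : ℂ) • pb (conf_smul (p n).ne') U)) q =
      ft (cx u) (((n : ℝ) + 1)⁻¹ • q) := fun n q => by
    refine (ft_mul _ _ q).trans ?_
    rw [← hU, show ft (pb (conf_smul (p n).ne') U) q = _ from Two.ft_conf (conf_smul (p n).ne')
      (q := ((n : ℝ) + 1)⁻¹ • q) (fun z => by
        rw [H755.md_smul, H755.md_smul_l, mul_inv_cancel_left₀ (p n).ne']) U, ← mul_assoc,
      ← ofReal_mul, mul_inv_cancel₀ (by positivity), ofReal_one, one_mul]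
  refine ⟨fun n => ((((n + 1) ^ 2) ^ 2 : ℝ) : ℂ) • pb (conf_smul (p n).ne') U,
    fun n => ⟨(Api4.dc_const_mul _ (Api4.dc_comp_cle
    (show Dc U from hU ▸ Api4.dc_cx hu) (conf_smul (p n).ne').cle)).2, ?_⟩,
    fun n q => (congrArg norm (e n q)).trans_le ((norm_ft_le _ _).trans_eq ?_), fun q => ?_⟩
  · refine (closure_minimal (fun y hy => ?_) ((isClosed_tsupport u).preimage
      (continuous_const_smul ((n : ℝ) + 1)))).trans fun y hy => ?_
    · exact subset_tsupport _ fun k => hy (by simp [hU, cx, k])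
    · have := s1 hy
      simp only [Wdg, sub_zero, mem_ofPred, H755.md_smul] at this ⊢
      exact ⟨neg_of_mul_neg_right this.1 (p n).le, (pos_iff_pos_of_mul_pos this.2).1 (p n)⟩
  · simp only [cx, norm_real, Real.norm_of_nonneg (u0 _), i1]
  · have := ((Two.cont_ft (f := cx u) (Ap.tst_sw hu)).tendsto _).comp
      ((tendsto_one_div_add_atTop_nhds_zero_nat (𝕜 := ℝ)).smul_const q)
    rw [zero_smul, show ft (cx u) 0 = ∫ z, cx u z by simp [ft, GF.mdot]] at this
    simpa only [e, cx, integral_complex_ofReal, i1, ofReal_one, one_div, Function.comp_def] using this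

variable (c) in
/-- locality in the wedge: the partner of `om g` is `J om' (g ∘ j)` -/
def Lc (om om' : Sch →L[ℂ] Completion D) : Prop := ∀ g g' : Sch, HasCompactSupport g →
  tsupport g ⊆ Wdg va vb 0 → (∀ x, g' x = g (jr x)) →
    Pr (c.N (Wdg va vb 0)) c.Om (om g) (c.J (om' g'))

/-- locality in the opposite wedge -/
lemma lc_of (j : JC c) (h : ∀ g g' : Sch, HasCompactSupport g → tsupport g ⊆ Wdg vb va 0 →
    (∀ x, g' x = g (jr x)) → Pr (c.N (Wdg vb va 0)) c.Om (om g) (c.J (om' g'))) : Lc c om' om :=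
  fun g g' h1 h2 e => by
    have e' : ⇑g' = g ∘ conf_jr.cle := funext e
    have := h g' g (e' ▸ h1.comp_homeomorph conf_jr.cle.toHomeomorph) (fun x hx => JCa.jr_wdg ▸
      ⟨jr x, h2 (Ap.tsupp_sub ((isClosed_tsupport g).preimage cont_jr)
        (fun y hy => subset_tsupport g (by rwa [e] at hy)) hx), jr_jr x⟩) fun x => by rw [e, jr_jr]
    rw [← j.dual _ _ _ null_va null_vb (md_ab ▸ one_pos)] at this
    simpa only [c.E.J_J] using (this.J_md' c.E).symm

lemma Lc.shift (h : Hom c d om) (h' : Hom c d om') (l : Lc c om om') (f : Sch) (z : ℂ) :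
    Gs (fun s => Bo c.Q s (om (bS s f))) (z + π * I) = Gs (fun s => Bo c.Q s (om' (bS s f))) z := by
  obtain ⟨G, g1, g2, g3⟩ := ex_G
  have e : ∀ n p, ft (ev (pb conf_jr (G n))) p = ft (ev (G n)) (jr p) := fun n p =>
    (Two.ft_conf conf_jr (q := jr p) (fun z => md_jr p z) (ev (G n))).trans (by simp)
  refine tendsto_nhds_unique (h.lim f g2 g3 _) ((h'.lim f (G := fun n => pb conf_jr (G n))
    (fun n p => e n p ▸ g2 n _) (fun p => by simpa only [e] using g3 _) z).congr fun n => ?_)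
  have := kms c.E (l (G n) (pb conf_jr (G n)) (g1 n).1 (g1 n).2 fun _ => rfl) z
  simp only [← KDa.bo_eq, c.E.J_J] at this
  rw [this]

lemma bo_zero (f : Sch) : Bo c.Q 0 (om (bS 0 f)) = om f := by
  rw [(grp_row c).ugB.zero', show bS 0 f = f from SchwartzMap.ext fun x => by simp [bS_apply, scp_one]]
  rfl

/-- **The weight lemma.** -/
theorem wl (h : Hom c d om) (h' : Hom c d om') (l : Lc c om om') (l' : Lc c om' om) (f : Sch) :
    ∃ a : ℕ → Completion D, a 0 = 0 ∧ ∀ t : ℝ,
      Bo c.Q t (om (bS t f)) = ∑ j ∈ range (2 * d), cexp ((j - d) * t) • a j ∧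
      Bo c.Q t (om' (bS t f)) = ∑ j ∈ range (2 * d), ((-1) ^ (j + d) * cexp ((j - d) * t)) • a j :=
  gauss (h.gr f) (h'.gr f) (l.shift h h' f) (l'.shift h' h f)

/-- dimension zero -/
theorem wl0 (h : Hom c 0 om) (h' : Hom c 0 om') (l : Lc c om om') (l' : Lc c om' om) : om = 0 := by
  ext f
  obtain ⟨a, -, ha⟩ := wl (d := 0) (by simpa using h) (by simpa using h') l l' f
  simpa [bo_zero] using (ha 0).1

/-- dimension one -/
theorem wl1 (h : Hom c 1 om) (h' : Hom c 1 om') (l : Lc c om om') (l' : Lc c om' om) :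
    om' = om ∧ ∀ t f, Bo c.Q t (om (bS t f)) = om f := by
  have k := fun f => wl (d := 1) (by simpa using h) (by simpa using h') l l' f
  refine ⟨ContinuousLinearMap.ext fun f => ?_, fun t f => ?_⟩ <;> obtain ⟨a, a0, ha⟩ := k f <;>
    simp [sum_range_succ, a0] at ha
  · simpa only [bo_zero] using (ha 0).2.trans (ha 0).1.symm
  · simpa only [bo_zero] using (ha t).1.trans (ha 0).1.symm

/-- dimension two -/
theorem wl2 (h : Hom c 2 om) (h' : Hom c 2 om') (l : Lc c om om') (l' : Lc c om' om) (f : Sch) :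
    ∃ a b e : Completion D, ∀ t : ℝ,
      Bo c.Q t (om (bS t f)) = cexp (-t) • a + b + cexp t • e ∧
      Bo c.Q t (om' (bS t f)) = -(cexp (-t) • a) + b - cexp t • e := by
  obtain ⟨a, a0, ha⟩ := wl (d := 2) (by simpa using h) (by simpa using h') l l' f
  refine ⟨a 1, a 2, a 3, fun t => ?_⟩
  have := ha t
  norm_num [sum_range_succ, a0] at this
  simpa [sub_eq_add_neg] using this

end Vale.Agent.P352Y.Wl

end
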