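import Vale.Agent.P352Y.Gl
import Vale.Agent.P352X.R.STRUCT
import Vale.Agent.P352X.R.WK.Gen
import Vale.Agent.P352X.Api2d
import Vale.Agent.P352X.Api1P

/-!
# P352Y, step 1: the time ordered product off the diagonal
-/

set_option linter.all false

noncomputable section

open Filter Topology Set Metric
open scoped SchwartzMap ContDiff LineDeriv

namespace Vale.Agent.P352Y

open Vale.Agent.P352 Vale.Agent.P352.GF Vale.Agent.P352.BW Vale.Agent.P352X Api4
open Vale.Agent.P352.H246 (In)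
open UniformSpace (Completion)
open Str (sw)
open Ap (Cc)

/-- supports off the diagonal -/
def OffD (F : S2) : Prop := ∀ x, (x, x) ∉ tsupport F

/-- the second point is not in the causal future of the first point -/
def Lt : Set (V × V) := {z | z.2 - z.1 ∉ Cc}

lemma open_Lt : IsOpen Lt := Ap.closed_Cc.isOpen_compl.preimage (continuous_snd.sub continuous_fst)

/-- the frame of the diagonal -/
def f2 : Fr (V × V) Ix where
  lam := ContinuousLinearMap.fst ℝ V V - ContinuousLinearMap.snd ℝ V V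
  sig := ContinuousLinearMap.inl ℝ V V
  inv u := sub_zero u

lemma f2_lam (z : V × V) : f2.lam z = z.1 - z.2 := rfl

lemma away_iff {F : S2} : f2.Away F ↔ OffD F :=
  ⟨fun h x => h _ (sub_self x), fun h y hy => by
    rw [show y = (y.2, y.2) from Prod.ext (sub_eq_zero.1 hy) rfl]; exact h _⟩

lemma Cc_smul {s : ℝ} (hs : 0 < s) {u : V} (h : u ∈ Cc) : s • u ∈ Cc :=
  ⟨mul_nonneg hs.le h.1, by rw [mu_smul]; exact mul_nonneg (sq_nonneg s) h.2⟩

lemma tsupport_comp {X Y : Type*} [TopologicalSpace X] [TopologicalSpace Y] {f : Y → ℂ}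
    {g : X → ℂ} {e : X → Y} (he : Continuous e) (h : ∀ x, f (e x) = 0 → g x = 0) :
    tsupport g ⊆ e ⁻¹' tsupport f :=
  closure_minimal (fun x hx => subset_tsupport f fun a => hx (h x a))
    ((isClosed_tsupport f).preimage he)

lemma sw_sw (F : S2) : sw (sw F) = F := rfl

lemma sw_tens (f g : Sch) : sw (ST.tens f g) = ST.tens g f :=
  SchwartzMap.ext fun _ => mul_comm _ _

lemma tsupport_sw (F : S2) : tsupport (sw F) ⊆ Prod.swap ⁻¹' tsupport F :=
  tsupport_comp continuous_swap fun _ h => h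

lemma OffD.sw {F : S2} (h : OffD F) : OffD (sw F) := fun x a => h x (tsupport_sw F a)

lemma sim_sub (s : ℝ) (L : Ix → V) (a x y : V) : sim s L a y - sim s L a x = sim s L 0 (y - x) := by
  funext n
  simp only [sim, Pi.sub_apply, Pi.zero_apply, sub_mul, Finset.sum_sub_distrib]
  ring

lemma Cc_sim {s : ℝ} {L : Ix → V} (hs : 0 < s) (hL : IsLor L) (a x y : V) :
    sim s L a y - sim s L a x ∈ Cc ↔ y - x ∈ Cc := by
  rw [sim_sub]
  exact Ap.Cc_conf (conf_sim hs hL) (Fc_sim hs hL)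

/-- locality principle -/
lemma off_of {G : Type*} [NormedAddCommGroup G] [NormedSpace ℂ G] [CompleteSpace G]
    (Λ : S2 →L[ℂ] G) (h1 : ∀ F : S2, tsupport F ⊆ Lt → Λ F = 0)
    (h2 : ∀ F : S2, tsupport F ⊆ Lt → Λ (sw F) = 0) {F : S2} (hF : OffD F) : Λ F = 0 := by
  refine ST.vanish_local Λ F fun q hq => ?_
  by_cases h : q ∈ Lt
  · obtain ⟨δ, hδ, hb⟩ := Metric.isOpen_iff.1 open_Lt q h
    exact ⟨δ, hδ, fun f hf => h1 f (hf.trans hb)⟩
  · have h' : q ∈ Prod.swap ⁻¹' Lt := fun a => hF q.1 (by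
      have := Ap.Cc_anti (not_not.1 h) (by rw [neg_sub]; exact a)
      rwa [show (q.1, q.1) = q from Prod.ext rfl (sub_eq_zero.1 this).symm])
    obtain ⟨δ, hδ, hb⟩ := Metric.isOpen_iff.1 (open_Lt.preimage continuous_swap) q h'
    exact ⟨δ, hδ, fun f hf => h2 (sw f) fun z hz => hb (hf (tsupport_sw f hz))⟩

/-- ordered pairs -/
def cn (I : I2) : I2 := (min I.1 I.2, max I.1 I.2)

lemma cn_swap (I : I2) : cn I.swap = cn I := Prod.ext (min_comm _ _) (max_comm _ _)

lemma cn_or (I : I2) : cn I = I ∨ cn I = I.swap :=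
  (le_total I.1 I.2).imp (fun h => Prod.ext (min_eq_left h) (max_eq_right h))
    fun h => Prod.ext (min_eq_right h) (max_eq_left h)

variable {D : Type*} [NormedAddCommGroup D] [InnerProductSpace ℂ D]

/-- the kernel of the product of two components of `T` -/
structure WKer (Q : Theory D) (T : Ix → Ix → Fld D) (W : I2 → I2 → S2 →L[ℂ] Completion D) :
    Prop where
  prod : ∀ K M (f g : Sch) (F : S2), (∀ x y, F (x, y) = f x * g y) →
    W K M F = ((T K.1 K.2 (ev f) (T M.1 M.2 (ev g) Q.vac) : D) : Completion D)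
  cov : ∀ s L a K M (F G : S2), 0 < s → IsLor L →
    (∀ x y, G (x, y) = F (sim s L a x, sim s L a y)) →
      W K M F = ∑ K', ∑ M', (L2 L K' K * L2 L M' M) • Ug Q s L a (W K' M' G)

/-- the time ordered product off the diagonal -/
structure W0 (W w : I2 → I2 → S2 →L[ℂ] Completion D) : Prop where
  lt : ∀ I J (F : S2), tsupport F ⊆ Lt → w I J F = W I J F
  swap : ∀ I J (F G : S2), (∀ x y, G (x, y) = F (y, x)) → w I J F = w J I G
  ind : ∀ I J, w I J = w I.swap J

variable {Q : Theory D} {T : Ix → Ix → Fld D} {W w : I2 → I2 → S2 →L[ℂ] Completion D}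

theorem exists_wker (hT : Q.IsStress T) : ∃ W, WKer Q T W :=
  (Wk.wk_gen hT).imp fun _ h => ⟨h.1, h.2⟩

lemma WKer.tens (hW : WKer Q T W) (K M : I2) (f g : Sch) : W K M (ST.tens f g) =
    ((T K.1 K.2 (ev f) (T M.1 M.2 (ev g) Q.vac) : D) : Completion D) :=
  hW.prod K M f g _ fun _ _ => rfl

lemma WKer.cn (hT : Q.IsStress T) (hW : WKer Q T W) (I J : I2) : W (cn I) (cn J) = W I J := by
  refine ST.ext2 fun f g _ _ => ?_
  have e : ∀ (I : I2) (f : Sch) v, T (P352Y.cn I).1 (P352Y.cn I).2 (ev f) v = T I.1 I.2 (ev f) v :=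
    fun I f v => by
      rcases cn_or I with h | h <;> rw [h]
      exact hT.symm _ _ _ _ ⟨f, rfl⟩
  rw [hW.tens, hW.tens, e, e]

/-- locality of the kernel -/
lemma WKer.loc (hT : Q.IsStress T) (hW : WKer Q T W) (I J : I2) {F : S2} (h1 : tsupport F ⊆ Lt)
    (h2 : tsupport F ⊆ Prod.swap ⁻¹' Lt) : W I J F = W J I (sw F) := by
  refine sub_eq_zero.1 (ST.ker2 (W I J - W J I ∘L sw)
    (open_Lt.inter (open_Lt.preimage continuous_swap)) (fun f g _ _ h => ?_) F
    (subset_inter h1 h2))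
  rw [ContinuousLinearMap.sub_apply, ContinuousLinearMap.comp_apply, sw_tens, hW.tens, hW.tens,
    Q.loc _ _ _ _ _ (hT.bose _ _) (Grp.T_fld hT _ _) ⟨f, rfl⟩ ⟨g, rfl⟩ (Ap.sep_iff.2
      ⟨fun x hx y hy => (h (mk_mem_prod hx hy)).1, fun y hy x hx => (h (mk_mem_prod hx hy)).2⟩),
    sub_self]

/-- **Step 1.** -/
theorem exists_w0 (hT : Q.IsStress T) (hW : WKer Q T W) : ∃ w, W0 W w := by
  have h1 : ∀ I J, ∃ u : S2 →L[ℂ] Completion D, (∀ F : S2, tsupport F ⊆ Lt → u F = W I J F) ∧
      ∀ F : S2, tsupport F ⊆ Lt → u (sw F) = W J I F := fun I J => by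
    obtain ⟨u, hu⟩ := f2.glue (ι := Bool) (fun b => {u | cond b (-u) u ∉ Cc})
      (fun b => cond b (W I J) (W J I ∘L sw))
      (fun b => by
        cases b
        exacts [Ap.closed_Cc.isOpen_compl, Ap.closed_Cc.isOpen_compl.preimage continuous_neg])
      (fun b u s hs h a => by
        cases b
        · exact h (Cc_smul hs a)
        · exact h (by simpa using Cc_smul hs a))
      (fun b h => by cases b <;> exact h (by simpa using Ap.zero_Cc))
      (fun u hu => by
        by_cases h : u ∈ Cc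
        · exact ⟨true, fun a => hu (Ap.Cc_anti h a)⟩
        · exact ⟨false, h⟩)
      fun b b' F _ hF => by
        have k : ∀ {F : S2}, tsupport F ⊆ f2.lam ⁻¹' {u | -u ∉ Cc} →
            tsupport F ⊆ f2.lam ⁻¹' {u | u ∉ Cc} → W I J F = W J I (sw F) := fun a b =>
          hW.loc hT I J (fun z hz c => a hz (by rwa [f2_lam, neg_sub])) fun z hz => b hz
        cases b <;> cases b'
        · rfl
        · exact (k (fun z hz => (hF hz).2) fun z hz => (hF hz).1).symm
        · exact k (fun z hz => (hF hz).1) fun z hz => (hF hz).2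
        · rfl
    exact ⟨u, fun F hF => hu true F fun z hz c => hF hz (by
      rwa [cond_true, f2_lam, neg_sub] at c), fun F hF => hu false _ fun z hz =>
        hF (tsupport_sw F hz)⟩
  choose u h1 h2 using h1
  refine ⟨fun I J => (1 / 2 : ℂ) • (u (cn I) (cn J) + u (cn J) (cn I) ∘L sw),
    fun I J F hF => ?_, fun I J F G e => ?_, fun I J => by simp only [cn_swap]⟩
  · simp only [ContinuousLinearMap.smul_apply, ContinuousLinearMap.add_apply,
      ContinuousLinearMap.comp_apply, h1 _ _ F hF, h2 _ _ F hF, hW.cn hT]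
    rw [← two_smul ℂ, smul_smul]
    norm_num
  · rw [show G = sw F from SchwartzMap.ext fun z => e z.1 z.2]
    simp only [ContinuousLinearMap.smul_apply, ContinuousLinearMap.add_apply,
      ContinuousLinearMap.comp_apply, sw_sw]
    rw [add_comm]

namespace W0

lemma sw (h : W0 W w) (I J : I2) (F : S2) : w I J (sw F) = w J I F :=
  h.swap I J _ F fun _ _ => rfl

lemma ind2 (h : W0 W w) (K J : I2) : w K J.swap = w K J := by
  ext F
  rw [← h.sw J.swap K, ← h.sw J K, ← h.ind]

/-- causal factorisation -/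
theorem fac (h : W0 W w) (hW : WKer Q T W) (I J : I2) (f g : Sch) (F : S2)
    (e : ∀ x y, F (x, y) = f x * g y) (hL : Late (tsupport f) (tsupport g)) :
    w I J F = ((T I.1 I.2 (ev f) (T J.1 J.2 (ev g) Q.vac) : D) : Completion D) := by
  rw [show F = ST.tens f g from SchwartzMap.ext fun z => e z.1 z.2, h.lt _ _ _ fun z hz =>
    hL _ (ST.tsupport_tens f g hz).1 _ (ST.tsupport_tens f g hz).2, hW.tens]

/-- exact covariance off the diagonal -/
theorem cov (h : W0 W w) (hW : WKer Q T W) {s : ℝ} {L : Ix → V} (a : V) (I J : I2) (F G : S2)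
    (hs : 0 < s) (hL : IsLor L) (e : ∀ x y, G (x, y) = F (sim s L a x, sim s L a y))
    (hF : OffD F) : w I J F = ∑ K, ∑ M, (L2 L K I * L2 L M J) • Ug Q s L a (w K M G) := by
  have k : ∀ I J (F : S2), tsupport F ⊆ Lt → w I J F =
      ∑ K, ∑ M, (L2 L K I * L2 L M J) • Ug Q s L a (w K M (Str.sim2 hs hL a F)) :=
    fun I J F hF => by
      have : tsupport (Str.sim2 hs hL a F) ⊆ Lt := fun z hz c => hF (tsupport_comp
        (e := fun z : V × V => (sim s L a z.1, sim s L a z.2)) (by unfold sim; fun_prop)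
        (fun z a' => (Str.sim2_apply hs hL a F z.1 z.2).trans a') hz) ((Cc_sim hs hL a _ _).2 c)
      simp only [h.lt _ _ _ this, h.lt _ _ _ hF]
      exact hW.cov s L a I J F _ hs hL (Str.sim2_apply hs hL a F)
  rw [show G = Str.sim2 hs hL a F from SchwartzMap.ext fun z =>
    (e z.1 z.2).trans (Str.sim2_apply hs hL a F z.1 z.2).symm]
  have := off_of (w I J - ∑ K, ∑ M, (L2 L K I * L2 L M J) •
    (Ug Q s L a ∘L w K M ∘L Str.sim2 hs hL a)) (fun F hF => ?_) (fun F hF => ?_) hF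
  all_goals simp only [ContinuousLinearMap.sub_apply, ContinuousLinearMap.sum_apply,
    ContinuousLinearMap.smul_apply, ContinuousLinearMap.comp_apply, sub_eq_zero] at *
  · exact this
  · exact k I J F hF
  · rw [h.sw, k J I F hF, Finset.sum_comm]
    refine Finset.sum_congr rfl fun K _ => Finset.sum_congr rfl fun M _ => ?_
    rw [mul_comm, ← h.sw K M]
    rfl

/-- conservation off the diagonal -/
theorem cons (h : W0 W w) (hW : WKer Q T W) (hT : Q.IsStress T) (n : Ix) (J : I2) {G : S2}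
    (hG : OffD G) : dv1 w n J G = 0 := by
  rw [← Str.dvL_apply]
  refine ST.ker2_local _ G fun q hq => ?_
  obtain ⟨δ, d0, d⟩ := Str.late_near (x := q.1) (y := q.2) fun a => hG q.1 (by
    rwa [show (q.1, q.1) = q from Prod.ext rfl a])
  refine ⟨δ, d0, fun f g _ _ s1 s2 => ?_⟩
  have s3 := fun m : Ix => (SchwartzMap.tsupport_lineDerivOp_subset (bas m 1 : V) f).trans s1
  have c1 : ∀ v : D, ∑ m, T m n (ev (∂_{(bas m 1 : V)} f)) v = 0 := fun v => by
    simpa only [Grp.pd_ev] using hT.conserved n (ev f) v ⟨f, rfl⟩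
  rw [Str.dvL_apply, dv1]
  rcases d with d | d
  · rw [Finset.sum_congr rfl fun m _ => h.fac hW (m, n) J _ g _ (Str.d_tens m f g)
      fun a ha b hb => d a (s3 m ha) b (s2 hb), ← Str.coe_sum, c1, Completion.coe_zero]
  · rw [Finset.sum_congr rfl fun m _ => (h.swap (m, n) J _ (ST.tens g (∂_{(bas m 1 : V)} f))
      fun x y => (mul_comm _ _).trans (Str.d_tens m f g y x).symm).trans
        (h.fac hW J (m, n) g _ _ (fun _ _ => rfl) fun a ha b hb => d a (s2 ha) b (s3 m hb)),
      ← Str.coe_sum, ← Str.fld_lin (Grp.T_fld hT _ _) ⟨g, rfl⟩, c1]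
    exact (congrArg _ (map_zero (Wk.fL (Grp.T_fld hT _ _) g))).trans Completion.coe_zero

/-- the reflection at the origin -/
def ng (E : Type*) [NormedAddCommGroup E] [NormedSpace ℝ E] : 𝓢(E, ℂ) →L[ℂ] 𝓢(E, ℂ) :=
  SchwartzMap.compCLMOfContinuousLinearEquiv ℂ (ContinuousLinearEquiv.neg ℝ)

/-- locality relative to the local algebras -/
theorem loc (h : W0 W w) (hW : WKer Q T W) (Θ : Completion D →L⋆[ℂ] Completion D)
    (hΘ : ∀ m n k l f g, IsTest f → IsTest g → Θ (T m n f (T k l g Q.vac) : D) =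
      (T m n (bar fun z => f (-z)) (T k l (bar fun z => g (-z)) Q.vac) : D))
    {M : VonNeumannAlgebra (Completion D)} {O : Set V} (hO : IsOpen O)
    (haf : ∀ m n f, In O f → BW.T.Afs M (T m n f) (T m n (bar f))) (I J : I2) {G G' : S2}
    (hG : OffD G) (hs : tsupport G ⊆ O ×ˢ O) (e : ∀ x y, G' (x, y) = G (-x, -y)) :
    Pr M (om Q) (w I J G) (Θ (w I J G')) := fun Z hZ => by
  rw [show G' = ng _ G from SchwartzMap.ext fun z => e z.1 z.2]
  refine sub_eq_zero.1 (ST.ker2_local (innerSL ℂ (star Z (om Q)) ∘L w I J -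
    ((innerSLFlip ℂ (Z (om Q))).comp Θ) ∘L w I J ∘L ng _) G fun q hq => ?_)
  obtain ⟨δ, d0, d⟩ := Str.late_near (x := q.1) (y := q.2) fun a => hG q.1 (by
    rwa [show (q.1, q.1) = q from Prod.ext rfl a])
  obtain ⟨δ1, d1, b1⟩ := Metric.isOpen_iff.1 hO _ (hs hq).1
  obtain ⟨δ2, d2, b2⟩ := Metric.isOpen_iff.1 hO _ (hs hq).2
  have key : ∀ I J (f g : Sch), In O (ev f) → In O (ev g) → Late (tsupport f) (tsupport g) →
      inner ℂ (star Z (om Q)) (w I J (ST.tens f g)) =
        inner ℂ (Θ (w I J (ng _ (ST.tens f g)))) (Z (om Q)) := fun I J f g hf hg hL => by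
    have n1 : ∀ f : Sch, tsupport (ng _ f) ⊆ (fun x => -x) ⁻¹' tsupport f := fun f =>
      tsupport_comp continuous_neg fun _ a => a
    have n2 : ∀ f : Sch, (fun z => ev (ng _ f) (-z)) = ev f := fun f =>
      funext fun z => congrArg f (neg_neg z)
    rw [h.fac hW I J f g _ (fun _ _ => rfl) hL, h.swap I J _ (ST.tens (ng _ g) (ng _ f))
      fun x y => mul_comm _ _, h.fac hW J I _ _ _ (fun _ _ => rfl) fun x hx y hy c =>
        hL _ (n1 f hy) _ (n1 g hx) (by rwa [neg_sub_neg]), hΘ _ _ _ _ _ _ ⟨_, rfl⟩ ⟨_, rfl⟩, n2, n2]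
    exact Pr.of_afs (afs_comp (haf _ _ _ hf) (haf _ _ _ hg)) Q.vac Z hZ
  refine ⟨min δ (min δ1 δ2), by positivity, fun f g cf cg s1 s2 => sub_eq_zero.2 ?_⟩
  have hf : In O (ev f) := ⟨⟨f, rfl⟩, cf, s1.trans
    ((ball_subset_ball ((min_le_right _ _).trans (min_le_left _ _))).trans b1)⟩
  have hg : In O (ev g) := ⟨⟨g, rfl⟩, cg, s2.trans
    ((ball_subset_ball ((min_le_right _ _).trans (min_le_right _ _))).trans b2)⟩
  replace s1 := s1.trans (ball_subset_ball (min_le_left _ _))
  replace s2 := s2.trans (ball_subset_ball (min_le_left _ _))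
  rcases d with d | d
  · exact key I J f g hf hg (Ap.late_mono d s1 s2)
  · have := key J I g f hg hf (Ap.late_mono d s2 s1)
    rwa [← h.sw I J, ← h.sw I J (ng _ _), sw_tens, show Str.sw (ng _ (ST.tens g f)) =
      ng _ (ST.tens f g) from SchwartzMap.ext fun _ => mul_comm _ _] at this

end W0

end Vale.Agent.P352Y
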