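import Vale.Agent.P352Y.Wh
import Vale.Agent.P352Y.W0

/-!
# P352Y, step 6: Lorentz invariant extension to the origin
-/

set_option linter.all false

noncomputable section

open Filter Topology Set Metric
open scoped SchwartzMap ContDiff ComplexConjugate

namespace Vale.Agent.P352Y

open Vale.Agent.P352 Vale.Agent.P352.GF Vale.Agent.P352X Api4

/-- tensor representations -/
structure Rep (ι : Type) [Fintype ι] [DecidableEq ι] where
  r : (Ix → V) → ι → ι → ℝ
  one : ∀ i j, r GF.one i j = if i = j then 1 else 0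
  mul : ∀ L M i j, r (mulL L M) i j = ∑ k, r M i k * r L k j
  tr : ∀ L i j, r (fun m n => L n m) i j = r L j i
  diff : ∀ i j, Differentiable ℝ fun L => r L i j

namespace Rep

variable {ι κ : Type} [Fintype ι] [DecidableEq ι] [Fintype κ] [DecidableEq κ]

def base : Rep Ix where
  r L := L
  one i j := by simp [GF.one, bas, eq_comm]
  mul := mulL_apply
  tr _ _ _ := rfl
  diff _ _ := by fun_prop

def triv : Rep Unit where
  r _ _ _ := 1
  one _ _ := by simp
  mul _ _ _ _ := by simp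
  tr _ _ _ := rfl
  diff _ _ := differentiable_const _

def prod (R : Rep ι) (S : Rep κ) : Rep (ι × κ) where
  r L p q := R.r L p.1 q.1 * S.r L p.2 q.2
  one p q := by
    rw [R.one, S.one]
    by_cases h : p.1 = q.1 <;> simp [Prod.ext_iff, h]
  mul L M p q := by
    rw [R.mul, S.mul, Finset.sum_mul_sum, Fintype.sum_prod_type]
    exact Finset.sum_congr rfl fun _ _ => Finset.sum_congr rfl fun _ _ => by ring
  tr L p q := by rw [R.tr, S.tr]
  diff p q := (R.diff _ _).mul (S.diff _ _)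

def sum (R : Rep ι) (S : Rep κ) : Rep (ι ⊕ κ) where
  r L := Matrix.fromBlocks (Matrix.of (R.r L)) 0 0 (Matrix.of (S.r L))
  one := by rintro (i | i) (j | j) <;> simp [R.one, S.one]
  mul L M := by rintro (i | i) (j | j) <;> simp [R.mul, S.mul]
  tr L := by
    rintro (i | i) (j | j)
    exacts [R.tr L i j, rfl, rfl, S.tr L i j]
  diff := by rintro (i | i) (j | j) <;> simp [R.diff, S.diff]

def pow (R : Rep ι) (k : ℕ) : Rep (Fin k → ι) where
  r L ν γ := ∏ i, R.r L (ν i) (γ i)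
  one ν γ := by simp [R.one, Finset.prod_ite_zero, funext_iff]
  mul L M ν γ := by
    simp only [R.mul, Finset.prod_univ_sum, Fintype.piFinset_univ, Finset.prod_mul_distrib]
  tr L ν γ := Finset.prod_congr rfl fun _ _ => R.tr L _ _
  diff ν γ := by
    have := R.diff
    fun_prop

variable (R : Rep ι)

/-- the operators -/
def op (L : Ix → V) : EuclideanSpace ℂ ι →L[ℂ] EuclideanSpace ℂ ι := ∑ i, ∑ j, (R.r L j i : ℂ) •
  (EuclideanSpace.proj j).smulRight (EuclideanSpace.single i (1 : ℂ))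

lemma op_apply (L : Ix → V) (x : EuclideanSpace ℂ ι) (i : ι) :
    R.op L x i = ∑ j, R.r L j i * x j := by
  simp [op, Pi.single_apply]

/-- Whitehead's lemma in coordinates -/
theorem wh (c : (Ix → V) → ι → ℂ) (S : Submodule ℂ (ι → ℂ))
    (cd : ∀ i, DifferentiableAt ℝ (fun L => c L i) GF.one)
    (coc : ∀ L M, IsLor L → IsLor M → ∀ i, c (mulL L M) i = ∑ j, R.r L j i * c M j + c L i)
    (hS : ∀ L, IsLor L → ∀ x ∈ S, (fun i => ∑ j, R.r L j i * x j) ∈ S)
    (cS : ∀ L, IsLor L → c L ∈ S) :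
    ∃ b ∈ S, ∀ L, IsLor L → ∀ i, c L i = b i - ∑ j, R.r L j i * b j := by
  refine (whitehead R.op (fun L => WithLp.toLp 2 (c L))
    (S.comap (WithLp.linearEquiv 2 ℂ (ι → ℂ)).toLinearMap) ?_ ?_ ?_ ?_ ?_ ?_ ?_ cS).elim
    fun b h => ⟨b.ofLp, h.1, fun L hL i => by
      simpa [op_apply] using congrArg (fun x : EuclideanSpace ℂ ι => x i) (h.2 L hL)⟩
  · ext x i
    simp [op_apply, R.one, apply_ite]
  · exact .fun_sum fun i _ => .fun_sum fun j _ =>
      (Complex.ofRealCLM.differentiableAt.comp _ (R.diff j i _)).smul_const _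
  · exact (differentiableAt_piLp 2).2 cd
  · intro L M _ _
    ext x i
    simp only [op_apply, R.mul, ContinuousLinearMap.mul_apply, Complex.ofReal_sum,
      Complex.ofReal_mul, Finset.sum_mul, Finset.mul_sum]
    exact Finset.sum_comm.trans
      (Finset.sum_congr rfl fun _ _ => Finset.sum_congr rfl fun _ _ => by ring)
  · intro L _ x y
    simp only [PiLp.inner_apply, op_apply, R.tr L, RCLike.inner_apply, map_sum, map_mul,
      Complex.conj_ofReal, Finset.sum_mul, Finset.mul_sum]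
    exact Finset.sum_comm.trans
      (Finset.sum_congr rfl fun _ _ => Finset.sum_congr rfl fun _ _ => by ring)
  · intro L M hL hM
    ext i
    simp [op_apply, coc L M hL hM]
  · intro L hL x hx
    convert hS L hL _ hx using 0
    exact iff_of_eq (congrArg (· ∈ S) (funext fun i => R.op_apply L x i))

end Rep

/-- the frame of the origin -/
def f0 : Fr (V × V) (Ix ⊕ Ix) where
  lam := (ContinuousLinearEquiv.sumPiEquivProdPi ℝ Ix Ix fun _ => ℝ).symm
  sig := ContinuousLinearEquiv.sumPiEquivProdPi ℝ Ix Ix fun _ => ℝ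
  inv := (ContinuousLinearEquiv.sumPiEquivProdPi ℝ Ix Ix fun _ => ℝ).symm_apply_apply

lemma f0_lam (y : V × V) : f0.lam y = Sum.elim y.1 y.2 := funext fun β => by cases β <;> rfl

lemma f0_zero {y : V × V} : f0.lam y = 0 ↔ y = 0 :=
  (ContinuousLinearEquiv.sumPiEquivProdPi ℝ Ix Ix fun _ => ℝ).symm.map_eq_zero_iff

lemma f0_away {F : V × V → ℂ} : f0.Away F ↔ 0 ∉ tsupport F :=
  ⟨fun h => h 0 (map_zero _), fun h _ hy => f0_zero.1 hy ▸ h⟩

/-- linear maps of pairs -/
def Lh (L : Ix → V) (y : V × V) : V × V := (sim 1 L 0 y.1, sim 1 L 0 y.2)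

lemma smooth_Lh : ContDiff ℝ ∞ fun q : (Ix → V) × V × V => Lh q.1 q.2 := by
  unfold Lh sim
  fun_prop

lemma cont_Lh (L : Ix → V) : Continuous (Lh L) :=
  smooth_Lh.continuous.comp (continuous_const.prodMk continuous_id)

lemma Lh_zero (L : Ix → V) : Lh L 0 = 0 := by
  ext n <;> simp [Lh, sim]

lemma Lh_mul (L M : Ix → V) (y : V × V) : Lh (mulL L M) y = Lh L (Lh M y) := by
  ext n <;> simp only [Lh, sim, mulL_apply, Pi.zero_apply, zero_add, one_mul, Finset.sum_mul,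
    Finset.mul_sum, mul_assoc] <;> exact Finset.sum_comm

lemma sim_near {L : Ix → V} (h : L ∈ ball GF.one (1 / 8)) (x : V) : ‖x‖ ≤ 2 * ‖sim 1 L 0 x‖ := by
  have : ‖x - sim 1 L 0 x‖ ≤ ‖x‖ / 2 := (pi_norm_le_iff_of_nonneg (by positivity)).2 fun n => by
    have e : (x - sim 1 L 0 x) n = ∑ m, x m * (GF.one - L) m n := by
      simp [sim, GF.one, bas, mul_sub]
    rw [e]
    refine (norm_sum_le_of_le _ (n := fun _ => ‖x‖ * (1 / 8)) fun m _ => ?_).trans (by simp; linarith)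
    rw [norm_mul]
    exact mul_le_mul (norm_le_pi_norm x m) (((norm_le_pi_norm _ n).trans
      (norm_le_pi_norm _ m)).trans (mem_ball_iff_norm'.1 h).le) (norm_nonneg _) (norm_nonneg _)
  linarith [norm_le_norm_sub_add x (sim 1 L 0 x)]

lemma fam_Lh {g : V × V → ℂ} (hg : Dc g) : Fam (ball GF.one (1 / 8)) fun L y => g (Lh L y) := by
  obtain ⟨r, hr⟩ := hg.2.isCompact.isBounded.subset_closedBall 0
  refine fam_of_compact isOpen_ball (hg.1.comp smooth_Lh).contDiffOn
    (isCompact_closedBall 0 (2 * r)) fun L hL y hy => image_eq_zero_of_notMem_tsupport fun a => hy ?_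
  have h := mem_closedBall_zero_iff.1 (hr a)
  rw [mem_closedBall_zero_iff, Prod.norm_def, max_le_iff]
  exact ⟨(sim_near hL _).trans (mul_le_mul_of_nonneg_left ((norm_fst_le (Lh L y)).trans h) two_pos.le),
    (sim_near hL _).trans (mul_le_mul_of_nonneg_left ((norm_snd_le (Lh L y)).trans h) two_pos.le)⟩

variable {L M : Ix → V} {A ι : Type} [Fintype A] [DecidableEq A] [Fintype ι] [DecidableEq ι]

/-- the representation on the coordinates -/
def Rb : Rep (Ix ⊕ Ix) := Rep.base.sum Rep.base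

lemma lam_Lh (L : Ix → V) (y : V × V) (β : Ix ⊕ Ix) :
    f0.lam (Lh L y) β = ∑ ν, f0.lam y ν * Rb.r L ν β := by
  cases β <;> simp [f0_lam, Lh, sim, Rb, Rep.sum, Rep.base]

/-- homogeneous coordinates -/
def lam1 (y : V × V) : Unit ⊕ Ix ⊕ Ix → ℝ := Sum.elim 1 (f0.lam y)

lemma lam1_Lh (L : Ix → V) (y : V × V) (β : Unit ⊕ Ix ⊕ Ix) :
    lam1 (Lh L y) β = ∑ ν, lam1 y ν * (Rep.triv.sum Rb).r L ν β := by
  cases β
  · simp [lam1, Rep.sum, Rep.triv]
  · rw [Fintype.sum_sum_type]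
    simpa [lam1, Rep.sum] using lam_Lh L y _

lemma mon_rep (R : Rep ι) {u u' : ι → ℝ} (h : ∀ β, u' β = ∑ ν, u ν * R.r L ν β) {k : ℕ}
    (γ : Fin k → ι) : mon γ u' = ∑ ν, (R.pow k).r L ν γ * mon ν u := by
  simp only [mon, h, Rep.pow, Complex.ofReal_sum, Complex.ofReal_mul, Finset.prod_univ_sum,
    Fintype.piFinset_univ, Finset.prod_mul_distrib, Complex.ofReal_prod, mul_comm]

lemma pad {k N : ℕ} (h : k ≤ N) (γ : Fin k → Ix ⊕ Ix) :
    ∃ γ' : Fin N → Unit ⊕ Ix ⊕ Ix, ∀ y, mon γ' (lam1 y) = mon γ (f0.lam y) := by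
  obtain ⟨d, rfl⟩ := Nat.exists_eq_add_of_le h
  exact ⟨Fin.append (fun i => .inr (γ i)) fun _ => .inl (), fun y => by
    simp [mon, Fin.prod_univ_add, lam1]⟩

/-- pull back -/
def pull (hL : IsLor L) : S2 →L[ℂ] S2 := Str.sim2 one_pos hL 0

lemma pull_apply (hL : IsLor L) (F : S2) (y : V × V) : pull hL F y = F (Lh L y) :=
  Str.sim2_apply one_pos hL 0 F y.1 y.2

lemma away_pull (hL : IsLor L) {F : S2} (h : f0.Away F) : f0.Away (pull hL F) :=
  f0_away.2 fun a => f0_away.1 h (Lh_zero L ▸ tsupport_comp (cont_Lh L)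
    (fun x b => (pull_apply hL F x).trans b) a)

lemma sn_pull (hL : IsLor L) (N : ℕ) :
    ∃ C, 0 ≤ C ∧ ∀ F, ST.sn _ ℂ N (pull hL F) ≤ C * ST.sn _ ℂ N F := by
  let e := (Str.sl one_pos hL).prodCongr (Str.sl one_pos hL)
  have h1 := norm_nonneg (e : V × V →L[ℝ] V × V)
  have h2 := norm_nonneg (e.symm : V × V →L[ℝ] V × V)
  refine ⟨_, ?_, fun F => ST.sn_comp (e : V × V →L[ℝ] V × V) (M := 1 + ‖(e : V × V →L[ℝ] V × V)‖)
    (K := 1 + ‖(e.symm : V × V →L[ℝ] V × V)‖) (by linarith) (by linarith) (by linarith)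
    (fun z => ?_) F _ (fun z => ?_) N⟩
  · positivity
  · have := (e.symm : V × V →L[ℝ] V × V).le_opNorm (e z)
    simp only [ContinuousLinearEquiv.coe_coe, e.symm_apply_apply] at this ⊢
    nlinarith [norm_nonneg (e z)]
  · exact (pull_apply hL F z).trans (congrArg F (Prod.ext (Str.sl_apply one_pos hL _).symm
      (Str.sl_apply one_pos hL _).symm))

variable (R : Rep A)

/-- the action on multiplets -/
def act (hL : IsLor L) : (A → S2 →L[ℂ] ℂ) →ₗ[ℂ] A → S2 →L[ℂ] ℂ where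
  toFun τ a := ∑ b, (R.r L b a : ℂ) • (τ b ∘L pull hL)
  map_add' _ _ := by
    ext a F
    simp [mul_add, Finset.sum_add_distrib]
  map_smul' _ _ := by
    ext a F
    simp [Finset.mul_sum, mul_left_comm]

lemma act_apply (hL : IsLor L) (τ : A → S2 →L[ℂ] ℂ) (a : A) (F : S2) :
    act R hL τ a F = ∑ b, R.r L b a * τ b (pull hL F) := by
  simp [act]

lemma act_mul (hL : IsLor L) (hM : IsLor M) (τ : A → S2 →L[ℂ] ℂ) :
    act R (lor_mul hL hM) τ = act R hL (act R hM τ) := by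
  ext a F
  rw [act_apply, show pull (lor_mul hL hM) F = pull hM (pull hL F) from SchwartzMap.ext fun y => by
    simp only [pull_apply, Lh_mul]]
  simp only [act_apply, R.mul, Complex.ofReal_sum, Complex.ofReal_mul, Finset.sum_mul,
    Finset.mul_sum]
  exact Finset.sum_comm.trans
    (Finset.sum_congr rfl fun _ _ => Finset.sum_congr rfl fun _ _ => by ring)

lemma act_off (hL : IsLor L) {σ : A → S2 →L[ℂ] ℂ} (h : ∀ a, f0.Off (σ a)) (a : A) :
    f0.Off (act R hL σ a) := fun F hF => by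
  simp [act_apply, h _ _ (away_pull hL hF)]

variable (A) in
/-- multiplets of order `N` supported at the origin -/
def Zs (N : ℕ) : Submodule ℂ (A → S2 →L[ℂ] ℂ) where
  carrier := {σ | ∀ a, f0.Off (σ a) ∧ ∀ (γ : Fin (N + 1) → Ix ⊕ Ix) (H f : S2),
    (∀ y, f y = mon γ (f0.lam y) * H y) → σ a f = 0}
  add_mem' h h' a := ⟨fun F hF => by simp [(h a).1 F hF, (h' a).1 F hF],
    fun γ H f e => by simp [(h a).2 γ H f e, (h' a).2 γ H f e]⟩
  zero_mem' _ := ⟨fun _ _ => rfl, fun _ _ _ _ => rfl⟩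
  smul_mem' c _ h a := ⟨fun F hF => by simp [(h a).1 F hF], fun γ H f e => by simp [(h a).2 γ H f e]⟩

lemma act_mem (hL : IsLor L) {N : ℕ} {σ : A → S2 →L[ℂ] ℂ} (h : σ ∈ Zs A N) :
    act R hL σ ∈ Zs A N := fun a => ⟨act_off R hL (fun a => (h a).1) a, fun γ H f e => by
  have : pull hL f = ∑ ν, ((Rb.pow _).r L ν γ : ℂ) • f0.mul (mon ν) 1 (pull hL H) :=
    SchwartzMap.ext fun y => by
      simp only [SchwartzMap.sum_apply, SchwartzMap.smul_apply, f0.mul_apply (temp_mon _),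
        pull_apply, e, mon_rep Rb (lam_Lh L y), one_smul, smul_eq_mul, Finset.sum_mul, mul_assoc]
  rw [act_apply, this]
  refine Finset.sum_eq_zero fun b _ => ?_
  rw [map_sum, Finset.sum_eq_zero fun ν _ => ?_, mul_zero]
  rw [map_smul, (h b).2 ν (pull hL H) _ fun y => by rw [f0.mul_apply (temp_mon _), one_smul],
    smul_zero]⟩

/-- **Lorentz invariant extension** -/
theorem fix (τ : A → S2 →L[ℂ] ℂ) (h : ∀ L (hL : IsLor L) a, f0.Off ((act R hL τ - τ) a)) :
    ∃ σ : A → S2 →L[ℂ] ℂ, (∀ a, f0.Off (σ a)) ∧ ∀ L (hL : IsLor L), act R hL (τ + σ) = τ + σ := by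
  choose C m hC hb using fun a => ST.clm_sn_c (τ a)
  set N := Finset.univ.sup m
  replace hb : ∀ a F, ‖τ a F‖ ≤ C a * ST.sn _ ℂ N F := fun a F => (hb a F).trans
    (mul_le_mul_of_nonneg_left (ST.sn_mono (Finset.le_sup (Finset.mem_univ a)) F) (hC a))
  have hZ : ∀ L (hL : IsLor L), act R hL τ - τ ∈ Zs A N := fun L hL a => by
    obtain ⟨K, hK, b⟩ := sn_pull hL N
    refine ⟨h L hL a, (h L hL a).van (C := ∑ b, |R.r L b a| * (C b * K) + C a)
      (add_nonneg (Finset.sum_nonneg fun b _ => by have := hC b; positivity) (hC a)) fun F => ?_⟩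
    rw [Pi.sub_apply, ContinuousLinearMap.sub_apply, act_apply, add_mul, Finset.sum_mul]
    refine (norm_sub_le _ _).trans (add_le_add (norm_sum_le_of_le _ fun c _ => ?_) (hb a F))
    rw [norm_mul, Complex.norm_real, Real.norm_eq_abs, mul_assoc, mul_assoc]
    exact mul_le_mul_of_nonneg_left ((hb c _).trans (mul_le_mul_of_nonneg_left (b F) (hC c)))
      (abs_nonneg _)
  obtain ⟨χ, hχ, h1⟩ := Fr.ex_cut (B := Ix ⊕ Ix)
  let g : (Fin N → Unit ⊕ Ix ⊕ Ix) → V × V → ℂ := fun γ y => mon γ (lam1 y) * χ (f0.lam y)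
  have hg : ∀ γ, Dc (g γ) := fun γ => dc_mul_left ((smooth_mon γ).comp (contDiff_pi.2 fun β => by
    cases β
    exacts [contDiff_const, contDiff_pi.1 f0.lam.contDiff _]))
    (dc_comp_cle hχ (ContinuousLinearEquiv.sumPiEquivProdPi ℝ Ix Ix fun _ => ℝ).symm)
  let cf : (A → S2 →L[ℂ] ℂ) →ₗ[ℂ] A × (Fin N → Unit ⊕ Ix ⊕ Ix) → ℂ :=
    ⟨⟨fun σ p => σ p.1 (sch (g p.2)), fun _ _ => rfl⟩, fun _ _ => rfl⟩
  let P := R.prod ((Rep.triv.sum Rb).pow N)
  have k1 : ∀ L (hL : IsLor L), ∀ σ ∈ Zs A N, ∀ p,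
      cf (act R hL σ) p = ∑ q, P.r L q p * cf σ q := fun L hL σ hσ p => by
    rw [Fintype.sum_prod_type]
    refine (act_apply R hL σ _ _).trans (Finset.sum_congr rfl fun b _ => ?_)
    rw [(hσ b).1.congr (g := ∑ ν, (((Rep.triv.sum Rb).pow N).r L ν p.2 : ℂ) • sch (g ν))
      fun y hy => ?_, map_sum, Finset.mul_sum]
    · exact Finset.sum_congr rfl fun ν _ => by
        rw [map_smul, smul_eq_mul, ← mul_assoc, ← Complex.ofReal_mul]; rfl
    · obtain rfl := f0_zero.1 hy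
      filter_upwards [Fr.near (φ := f0) h1 1 hy, ((cont_Lh L).tendsto' _ _ (Lh_zero L)).eventually
        (Fr.near (φ := f0) h1 1 hy)] with z a b
      rw [one_smul] at a b
      simp only [pull_apply, sch_apply (hg _), SchwartzMap.sum_apply, SchwartzMap.smul_apply, g, a,
        b, mul_one, smul_eq_mul, mon_rep _ (lam1_Lh L z)]
  let c : (Ix → V) → A × (Fin N → Unit ⊕ Ix ⊕ Ix) → ℂ := fun L p =>
    ∑ b, R.r L b p.1 * τ b (sch fun y => g p.2 (Lh L y)) - τ p.1 (sch (g p.2))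
  have hc : ∀ L (hL : IsLor L), c L = cf (act R hL τ - τ) := fun L hL => funext fun p => by
    simp only [c, sch_eq (pull hL (sch (g p.2))) fun y => by rw [pull_apply, sch_apply (hg _)],
      ← act_apply]
    rfl
  obtain ⟨_, ⟨σ, hσ, rfl⟩, hb⟩ := P.wh c ((Zs A N).map cf) (fun p => .sub_const (.fun_sum fun b _ =>
    (Complex.ofRealCLM.differentiableAt.comp _ (R.diff b p.1 _)).mul (((fam_Lh (hg p.2)).contDiffAt
      (τ b) (mem_ball_self (by norm_num))).differentiableAt (by simp))) _)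
    (fun L M hL hM p => by
      rw [hc _ (lor_mul hL hM), hc _ hL, hc _ hM, ← k1 L hL _ (hZ M hM), ← Pi.add_apply, ← map_add,
        act_mul, map_sub (act R hL), sub_add_sub_cancel])
    (by rintro L hL _ ⟨σ, hσ, rfl⟩; exact ⟨_, act_mem R hL hσ, funext (k1 L hL σ hσ)⟩)
    fun L hL => ⟨_, hZ L hL, (hc L hL).symm⟩
  refine ⟨σ, fun a => (hσ a).1, fun L hL => sub_eq_zero.1 ?_⟩
  have e : act R hL (τ + σ) - (τ + σ) = (act R hL τ - τ) + (act R hL σ - σ) := by
    rw [map_add]; abel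
  have z : act R hL (τ + σ) - (τ + σ) ∈ Zs A N :=
    e ▸ add_mem (hZ L hL) (sub_mem (act_mem R hL hσ) hσ)
  have z0 : ∀ p, cf (act R hL (τ + σ) - (τ + σ)) p = 0 := fun p => by
    rw [e, map_add, ← hc, map_sub, Pi.add_apply, Pi.sub_apply, hb L hL, k1 L hL σ hσ]
    ring
  ext a F
  rw [(z a).1.expand (z a).2 (sch χ) (by rwa [coe_sch hχ]) F]
  refine Finset.sum_eq_zero fun k hk => Finset.sum_eq_zero fun γ _ => ?_
  obtain ⟨γ', e'⟩ := pad (Nat.lt_succ_iff.1 (Finset.mem_range.1 hk)) γ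
  rw [show f0.mul (mon γ) 1 (f0.cut (sch χ) 0 (f0.dd γ F)) = f0.dd γ F 0 • sch (g γ') from
    SchwartzMap.ext fun y => by
      rw [f0.mul_apply (temp_mon _), Fr.cut_apply, f0_zero.1 ((f0.lam_Lt 0 y).trans (zero_smul _ _)),
        SchwartzMap.smul_apply, sch_apply (hg _), sch_apply hχ, one_smul, ← e', smul_eq_mul]
      ring, map_smul, show (act R hL (τ + σ) - (τ + σ)) a (sch (g γ')) = 0 from z0 (a, γ'),
    smul_zero, smul_zero]

end Vale.Agent.P352Y
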