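import Vale.Agent.P352Y.T3B
import Vale.Agent.P352Y.T3C
import Vale.Agent.P352X.R.RES.Fib

/-!
# P352Y, step 6: the time ordered three point function
-/

set_option linter.all false

noncomputable section

open Filter Topology Set Metric MeasureTheory
open scoped SchwartzMap ComplexConjugate

namespace Vale.Agent.P352Y

open Vale.Agent.P352 Vale.Agent.P352.GF Vale.Agent.P352.BW Vale.Agent.P352X Api4
open UniformSpace (Completion)
open Ap (Cc)
open RS.Fib (lor_one sim_tr l2_one inv2)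

variable {s : ℝ} {L : Ix → V} {e : Bool} {i : Fin 3}

lemma Rr_sim (hs : 0 < s) (hL : IsLor L) (a : V) (z : V × V × V) :
    (sim s L a z.1, sim s L a z.2.1, sim s L a z.2.2) ∈ Rr e i ↔ z ∈ Rr e i := by
  fin_cases i <;> cases e <;>
    exact and_congr (not_congr (Cc_sim hs hL a _ _)) (not_congr (Cc_sim hs hL a _ _))

lemma Rr_red (z : V × V × V) : (z.1 - z.2.1, 0, z.2.2 - z.2.1) ∈ Rr e i ↔ z ∈ Rr e i := by
  simpa only [sim_tr, ← sub_eq_add_neg, sub_self] using
    Rr_sim (e := e) (i := i) one_pos lor_one (-z.2.1) z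

lemma Rr_diag (x : V) : (x, x, x) ∉ Rr e i := by
  have : x - x ∈ Cc := by
    rw [sub_self]
    simpa using Cc_smul one_pos (u := 0) ⟨le_rfl, by simp [mu, GF.mdot]⟩
  fin_cases i <;> cases e <;> exact fun h => h.1 this

lemma Rr_cover {x y z : V} (h : ¬(x = y ∧ z = y)) : ∃ e i, (x, y, z) ∈ Rr e i := by
  have k : ∀ a b : V, b - a ∈ Cc → a o ≤ b o ∧ (b o ≤ a o → a = b) := fun a b h =>
    ⟨sub_nonneg.1 h.1, fun h' => (sub_eq_zero.1 (Ap.Cc_anti h
      ⟨neg_nonneg.2 (sub_nonpos.2 h'), by rw [mu_neg]; exact h.2⟩)).symm⟩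
  by_contra! H
  have h1 : ¬(y - x ∉ Cc ∧ z - x ∉ Cc) := H true 0
  have h2 : ¬(x - y ∉ Cc ∧ z - y ∉ Cc) := H true 1
  have h3 : ¬(x - z ∉ Cc ∧ y - z ∉ Cc) := H true 2
  have h4 : ¬(x - y ∉ Cc ∧ x - z ∉ Cc) := H false 0
  have h5 : ¬(y - x ∉ Cc ∧ y - z ∉ Cc) := H false 1
  have h6 : ¬(z - x ∉ Cc ∧ z - y ∉ Cc) := H false 2
  have := k x y
  have := k y x
  have := k x z
  have := k z x
  have := k y z
  have := k z y
  clear H k
  grind

/-- the regions in relative coordinates -/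
def Ur (e : Bool) (i : Fin 3) : Set (V × V) := {y | (y.1, 0, y.2) ∈ Rr e i}

lemma supp_red (ρ : Sch) (f : S2) :
    tsupport (red3 ρ f) ⊆ (fun z => (z.1 - z.2.1, z.2.2 - z.2.1)) ⁻¹' tsupport f :=
  tsupport_comp (by fun_prop) fun z h => by rw [red3_apply, h, mul_zero]

lemma supp_fib {u : S3} (hc : HasCompactSupport u) (h : tsupport u ⊆ Rr e i) :
    tsupport (fib3 volume u) ⊆ Ur e i := fun z hz => by
  obtain ⟨q, hq, rfl⟩ := tsupport_int volume (dc_comp_cle (dc_of_sch u hc) (rd3 V).symm) hz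
  simpa [Ur] using (Rr_red _).2 (h (tsupport_comp (rd3 V).symm.continuous (fun _ a => a) hq))

lemma fib_red {ρ : Sch} (h1 : ∫ y, ρ y = 1) (f : S2) : fib3 volume (red3 ρ f) = f :=
  SchwartzMap.ext fun z => by simp [integral_mul_const, h1]

lemma fib_sim (hL : IsLor L) (a : V) (F : S3) :
    fib3 volume (sim3 one_pos hL a F) = pull hL (fib3 volume F) := SchwartzMap.ext fun z => by
  have e : ∀ y u, sim 1 L a (y + u) = sim 1 L a y + sim 1 L 0 u := fun y u => by
    rw [← sub_eq_iff_eq_add', sim_sub, add_sub_cancel_left]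
  simp only [pull_apply, fib3_apply, sim3_apply, e]
  simpa [Lh] using (sc_sim one_pos hL a).integral fun y =>
    F (y + sim 1 L 0 z.1, y, y + sim 1 L 0 z.2)

lemma t_fib {t : M3} (h : ∀ a F, Cv one_pos lor_one a t F) {ρ : Sch} (h1 : ∫ y, ρ y = 1)
    (I J K : I2) (F : S3) : t I J K F = t I J K (red3 ρ (fib3 volume F)) := by
  have := inv2 volume (t I J K ∘L SchwartzMap.compCLMOfContinuousLinearEquiv ℂ (rd3 V))
    (fun a H => by
      refine (h a _ I J K).trans ?_
      simp only [l2_one, ite_mul, one_mul, zero_mul, Finset.sum_ite_eq', Finset.mem_univ, if_true,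
        Finset.sum_ite_irrel, Finset.sum_const_zero]
      exact congrArg _ (SchwartzMap.ext fun z => by simp [sim3_apply, sim_tr, ST.tsl_apply])) h1
    (SchwartzMap.compCLMOfContinuousLinearEquiv ℂ (rd3 V).symm F)
  refine Eq.trans (congrArg _ (SchwartzMap.ext fun z => ?_)) this
  exact congrArg F ((rd3 V).symm_apply_apply z).symm

/-- the representation on triples of index pairs -/
def R3 : Rep (I2 × I2 × I2) :=
  (Rep.base.prod Rep.base).prod ((Rep.base.prod Rep.base).prod (Rep.base.prod Rep.base))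

lemma sum_R3 (L : Ix → V) (I J K : I2) (X : I2 × I2 × I2 → ℂ) : ∑ b, R3.r L b (I, J, K) * X b =
    ∑ I', ∑ J', ∑ K', L2 L I' I * L2 L J' J * L2 L K' K * X (I', J', K') := by
  rw [Fintype.sum_prod_type]
  refine Finset.sum_congr rfl fun I' _ => (Fintype.sum_prod_type _).trans
    (Finset.sum_congr rfl fun J' _ => Finset.sum_congr rfl fun K' _ => ?_)
  simp [R3, Rep.prod, Rep.base, L2, mul_assoc]

/-- from relative coordinates to three points -/
def lift (τ : I2 × I2 × I2 → S2 →L[ℂ] ℂ) : M3 := fun I J K => τ (I, J, K) ∘L fib3 volume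

variable {k : Bool → M3} {t : M3}
  (hcv : ∀ e s L (hs : 0 < s) (hL : IsLor L) a F, Cv hs hL a (k e) F)
include hcv

lemma cv_Kk (hs : 0 < s) (hL : IsLor L) (a : V) (F : S3) : Cv hs hL a (Kk k e i) F := by
  fin_cases i
  exacts [hcv e s L hs hL a F, (hcv e s L hs hL a _).p1, (hcv e s L hs hL a _).p1.p2]

/-- covariance off the diagonal -/
lemma cv_off (h : ∀ e i, Ag (Rr e i) t (Kk k e i)) (hs : 0 < s) (hL : IsLor L) (a : V) {F : S3}
    (hF : ∀ x, (x, x, x) ∉ tsupport F) : Cv hs hL a t F := fun I J K => by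
  have := ST.vanish_local (t I J K - ∑ I', ∑ J', ∑ K', (L2 L I' I * L2 L J' J * L2 L K' K) •
    (t I' J' K' ∘L sim3 hs hL a)) F fun q hq => ?_
  · simpa only [ContinuousLinearMap.sub_apply, ContinuousLinearMap.sum_apply, sub_eq_zero,
      ContinuousLinearMap.smul_apply, ContinuousLinearMap.comp_apply, smul_eq_mul] using this
  obtain ⟨x, y, z⟩ := q
  obtain ⟨e, i, hi⟩ := Rr_cover (x := x) (y := y) (z := z) (by rintro ⟨rfl, rfl⟩; exact hF _ hq)
  obtain ⟨δ, hδ, hb⟩ := Metric.isOpen_iff.1 (open_Rr e i) _ hi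
  refine ⟨δ, hδ, fun f hf => ?_⟩
  have h2 : tsupport (sim3 hs hL a f) ⊆ Rr e i := fun z hz => (Rr_sim hs hL a z).1 (hb (hf
    (tsupport_comp (by unfold sim; fun_prop) (fun z b => (sim3_apply hs hL a f z).trans b) hz)))
  simp only [ContinuousLinearMap.sub_apply, ContinuousLinearMap.sum_apply, sub_eq_zero,
    ContinuousLinearMap.smul_apply, ContinuousLinearMap.comp_apply, smul_eq_mul,
    h e i _ _ _ _ (hf.trans hb), h e i _ _ _ _ h2]
  exact cv_Kk hcv hs hL a f I J K

lemma ag_lift {ρ : Sch} (h1 : ∫ y, ρ y = 1) {τ : I2 × I2 × I2 → S2 →L[ℂ] ℂ}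
    (h : ∀ e i b (f : S2), tsupport f ⊆ Ur e i → τ b f = Kk k e i b.1 b.2.1 b.2.2 (red3 ρ f))
    (e : Bool) (i : Fin 3) : Ag (Rr e i) (lift τ) (Kk k e i) := fun I J K F hF =>
  sub_eq_zero.1 (ST.vanish_of_compact (lift τ I J K - Kk k e i I J K) F fun u hc hu =>
    sub_eq_zero.2 ((h e i (I, J, K) _ (supp_fib hc (hu.trans hF))).trans
      (t_fib (cv_Kk hcv one_pos lor_one) h1 I J K u).symm))

/-- **Poincare covariant extension to the diagonal** -/
theorem exists_good (hcm : ∀ e e' i j, Ag (Rr e i ∩ Rr e' j) (Kk k e i) (Kk k e' j)) :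
    ∃ t, Good k t := by
  obtain ⟨r, hr, -, -, r1⟩ := Ap.ex_rho (volume : Measure V) (x := 0) univ_mem
  have h1 : ∫ y, sch (cx r) y = 1 := by
    simp only [sch_apply (dc_cx hr), cx, integral_complex_ofReal, r1, Complex.ofReal_one]
  set ρ := sch (cx r)
  have hg : ∀ b : I2 × I2 × I2, ∃ w : S2 →L[ℂ] ℂ, ∀ e i (f : S2), tsupport f ⊆ Ur e i →
      w f = Kk k e i b.1 b.2.1 b.2.2 (red3 ρ f) := fun b => by
    refine (f0.glue (fun p : Bool × Fin 3 => f0.sig ⁻¹' Ur p.1 p.2)
      (fun p => Kk k p.1 p.2 b.1 b.2.1 b.2.2 ∘L red3 ρ) (fun p => ?_) (fun p u s hs h => ?_)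
      (fun p => Rr_diag 0) (fun u hu => ?_) fun p q F _ hF => ?_).imp fun w hw e i => hw (e, i)
    · exact ((open_Rr _ _).preimage (f := fun y : V × V => (y.1, 0, y.2))
        (by fun_prop)).preimage f0.sig.continuous
    · have e : ∀ x, sim s GF.one 0 x = s • x := fun x => funext fun n => by simp [sim, GF.one, bas]
      refine (Rr_sim hs lor_one 0 _).1 ?_
      simp only [e, smul_zero]
      exact h
    · obtain ⟨e, i, h⟩ := Rr_cover (x := (f0.sig u).1) (y := 0) (z := (f0.sig u).2) fun a =>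
        hu ((f0.inv u).symm.trans (f0_zero.2 (Prod.ext a.1 a.2)))
      exact ⟨(e, i), h⟩
    · exact hcm _ _ _ _ _ _ _ _ fun z hz =>
        ⟨(Rr_red z).1 (hF (supp_red ρ F hz)).1, (Rr_red z).1 (hF (supp_red ρ F hz)).2⟩
  choose τ hτ using hg
  obtain ⟨σ, h0, hσ⟩ := fix R3 τ fun L hL ⟨I, J, K⟩ f hf => by
    have := cv_off hcv (ag_lift hcv h1 fun e i b => hτ b e i) one_pos hL 0 (F := red3 ρ f)
      (fun x a => f0_away.1 hf (by simpa [Prod.mk_zero_zero] using supp_red ρ f a)) I J K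
    simp only [lift, ContinuousLinearMap.comp_apply, fib_sim, fib_red h1] at this
    rw [Pi.sub_apply, ContinuousLinearMap.sub_apply, act_apply, sum_R3, this, sub_self]
  refine ⟨lift (τ + σ), ag_lift hcv h1 fun e i b f hf => ?_, fun L hL a F I J K => ?_⟩
  · rw [Pi.add_apply, ContinuousLinearMap.add_apply, hτ b e i f hf,
      h0 b f (f0_away.2 fun a => Rr_diag 0 (hf a)), add_zero]
  · simp only [lift, ContinuousLinearMap.comp_apply, fib_sim]
    rw [← sum_R3 L I J K fun b => (τ + σ) b _, ← act_apply, hσ]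

omit hcv

variable {D : Type*} [NormedAddCommGroup D] [InnerProductSpace ℂ D] {Q : Theory D}
  {T : Ix → Ix → Fld D} {wp wm : I2 → I2 → S2 →L[ℂ] Completion D}

/-- **The time ordered three point function exists.** -/
theorem exists_t (hT : Q.IsStress T) (tp : TP2 Q T true wp) (tm : TP2 Q T false wm)
    (hc : Cmp Q T wp wm) : ∃ t, TP Q T wp wm t := by
  obtain ⟨k, kp⟩ := exists_kp hT wp wm
  have hcv := fun e s L hs hL => kp.cv tp tm e (s := s) (L := L) hs hL
  obtain ⟨t, ht⟩ := exists_good hcv (kp.compat tp tm hc)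
  obtain ⟨u, hu, u1, u2, u3⟩ := ht.symm (kp.p2 tp tm) kp.ind1 (kp.ind2 tp tm)
  refine ⟨u, tp, tm, fun I J K f G F e h => ?_, fun I J K G G' f F e e' h => ?_,
    fun I J K F G e => ?_, fun I J K F G e => ?_, u3, fun s L a I J K F G hs hL e h => ?_⟩
  · obtain rfl : F = ST.tens f G := SchwartzMap.ext fun z => e z.1 z.2.1 z.2.2
    refine (hu.ag true 0 I J K _ fun z hz => ?_).trans (kp.tt I J K f G)
    have := ST.tsupport_tens f G hz
    exact ⟨h _ this.1 _ (.inl ⟨_, this.2, rfl⟩), h _ this.1 _ (.inr ⟨_, this.2, rfl⟩)⟩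
  · obtain rfl : G' = cj G := SchwartzMap.ext e'
    have e2 : s1 (s2 F) = ST.tens f G := SchwartzMap.ext fun z =>
      (e z.2.1 z.2.2 z.1).trans (mul_comm _ _)
    refine (hu.ag false 2 I J K F fun z hz => ?_).trans
      ((congrArg (k false K I J) e2).trans (kp.ff K I J f G))
    have := ST.tsupport_tens f G (tsupport_comp (e := fun z : V × V × V => (z.2.2, z.1, z.2.1))
      (by fun_prop) (fun z a => (e z.1 z.2.1 z.2.2).trans ((mul_comm _ _).trans a)) hz)
    exact ⟨h _ (.inl ⟨_, this.2, rfl⟩) _ this.1, h _ (.inr ⟨_, this.2, rfl⟩) _ this.1⟩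
  · obtain rfl : G = s1 F := SchwartzMap.ext fun z => e z.1 z.2.1 z.2.2
    exact (congrArg (fun v : M3 => v I J K F) u1).symm
  · obtain rfl : G = s2 F := SchwartzMap.ext fun z => e z.1 z.2.1 z.2.2
    exact (congrArg (fun v : M3 => v I J K F) u2).symm
  · obtain rfl : G = sim3 hs hL a F := SchwartzMap.ext fun z =>
      (e z.1 z.2.1 z.2.2).trans (sim3_apply hs hL a F z).symm
    rcases h with rfl | h
    exacts [hu.cv L hL a F I J K, cv_off hcv hu.ag hs hL a h I J K]

end Vale.Agent.P352Y
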