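import Vale.Agent.P352Y.Tay
import Vale.Agent.P352X.Api2

/-!
# P352Y: gluing of distributions over cones, structure theorem
-/

set_option linter.all false

noncomputable section

open Filter Topology Set MeasureTheory
open scoped SchwartzMap ContDiff LineDeriv

namespace Vale.Agent.P352Y

open Vale.Agent.P352X Vale.Agent.P352X.Api4

variable {Y B G : Type*} [NormedAddCommGroup Y] [NormedSpace ℝ Y] [Fintype B] [DecidableEq B]
  [NormedAddCommGroup G] [NormedSpace ℂ G]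

/-- continuous linear maps from a bound -/
lemma continuous_of_bd (A : 𝓢(Y, ℂ) →+ G) {C : ℝ} {M : ℕ} (h : ∀ F, ‖A F‖ ≤ C * ST.sn Y ℂ M F) :
    Continuous A := by
  refine continuous_of_tendsto_nhds_zero A (squeeze_zero_norm h ?_)
  simpa using ((ST.continuous_sn (E := Y) (F := ℂ) M).tendsto 0).const_mul C

/-- series of distributions -/
lemma exists_sum [CompleteSpace G] (Λ : ℕ → 𝓢(Y, ℂ) →L[ℂ] G) {c : ℕ → ℝ} (hc : Summable c)
    {M : ℕ} (h : ∀ j F, ‖Λ j F‖ ≤ c j * ST.sn Y ℂ M F) :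
    ∃ A : 𝓢(Y, ℂ) →L[ℂ] G, ∀ F, HasSum (fun j => Λ j F) (A F) := by
  have hs : ∀ F, Summable fun j => Λ j F := fun F =>
    Summable.of_norm_bounded (hc.mul_right _) fun j => h j F
  have ha : ∀ F F', ∑' j, Λ j (F + F') = ∑' j, Λ j F + ∑' j, Λ j F' := fun F F' => by
    simp only [map_add]; exact (hs F).tsum_add (hs F')
  refine ⟨⟨⟨⟨fun F => ∑' j, Λ j F, ha⟩, fun a F => ?_⟩,
    continuous_of_bd (AddMonoidHom.mk' (fun F => ∑' j, Λ j F) ha) (C := ∑' j, c j) (M := M)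
      fun F => ?_⟩, fun F => (hs F).hasSum⟩
  · simp only [map_smul, RingHom.id_apply]; exact (hs F).tsum_const_smul a
  · exact tsum_of_norm_bounded (hc.hasSum.mul_right _) fun j => h j F

lemma bd_dc {E : Type*} [NormedAddCommGroup E] [NormedSpace ℝ E] {θ : E → ℂ} (h : Dc θ) (m : ℕ) :
    ∃ A, 0 ≤ A ∧ ST.Bd (fun _ => A) m θ := by
  have b := ST.bd_sch (sch θ) (Nat.zero_le m) le_rfl
  rw [coe_sch h] at b
  exact ⟨2 ^ m * ST.sn E ℂ m (sch θ), by positivity, b.mono fun z => by simp⟩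

namespace Fr

variable (φ : Fr Y B)

omit [DecidableEq B] in
lemma norm_smul_lam {s M : ℝ} (h0 : 0 ≤ s) (h : s ≤ M) : ‖s • φ.lam‖ ≤ M * (1 + ‖φ.lam‖) := by
  rw [norm_smul, Real.norm_of_nonneg h0]
  have := norm_nonneg φ.lam
  nlinarith

omit [DecidableEq B] in
/-- the estimate near the subspace -/
lemma est_in {θ : (B → ℝ) → ℂ} (hθ : Dc θ) (m : ℕ) (γ : Fin (m + 1) → B) : ∃ C, 0 ≤ C ∧
    ∀ s : ℝ, 1 ≤ s → ∀ H g : 𝓢(Y, ℂ), (∀ y, g y = θ (s • φ.lam y) * (mon γ (φ.lam y) * H y)) →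
      ST.sn Y ℂ m g ≤ C * s⁻¹ * ST.sn Y ℂ m H := by
  obtain ⟨A, hA, b⟩ := bd_dc (dc_mul_right hθ (smooth_mon γ)) m
  refine ⟨2 ^ m * 2 ^ m * ((1 + ‖φ.lam‖) ^ m * A), by positivity, fun s hs H g e => ?_⟩
  have s0 : 0 < s := by linarith
  have b' := (b.comp (s • φ.lam) (M := s * (1 + ‖φ.lam‖)) (by nlinarith [norm_nonneg φ.lam])
    (φ.norm_smul_lam s0.le le_rfl)).const_mul ((s : ℂ) ^ (m + 1))⁻¹
  refine (ST.sn_mul (l := 0) (A := s⁻¹ * ((1 + ‖φ.lam‖) ^ m * A)) (b'.mono fun z => le_of_eq ?_)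
    H g fun z => ?_).trans (le_of_eq (by rw [add_zero]; ring))
  · rw [norm_inv, norm_pow, Complex.norm_real, Real.norm_of_nonneg s0.le, mul_pow]
    field_simp
    ring
  · have : (s : ℂ) ≠ 0 := by exact_mod_cast s0.ne'
    rw [e, ContinuousLinearMap.smul_apply, mon_smul]
    field_simp

omit [DecidableEq B] in
/-- the estimate far from the subspace -/
lemma est_out {θ : (B → ℝ) → ℂ} (hθ : Dc θ) (h0 : (0 : B → ℝ) ∉ tsupport θ) (m : ℕ) : ∃ C, 0 ≤ C ∧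
    ∀ s : ℝ, 0 ≤ s → s ≤ 1 → ∀ F : 𝓢(Y, ℂ),
      ST.sn Y ℂ m (φ.mul θ s F) ≤ C * s * ST.sn Y ℂ (m + 1) F := by
  obtain ⟨A, hA, b⟩ := bd_dc hθ m
  obtain ⟨δ, hδ, hb⟩ := Metric.isOpen_iff.1 (isClosed_tsupport θ).isOpen_compl 0 h0
  have b1 : ST.Bd (fun u => A / δ * ‖u‖) m θ := ⟨b.1, fun i hi u => by
    by_cases hu : ‖u‖ < δ
    · rw [Function.notMem_support.1 fun a => hb (mem_ball_zero_iff.2 hu)
        (support_iteratedFDeriv_subset i a), norm_zero]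
      positivity
    · refine (b.2 i hi u).trans ?_
      show A ≤ A / δ * ‖u‖
      rw [div_mul_eq_mul_div, le_div_iff₀ hδ]
      exact mul_le_mul_of_nonneg_left (not_lt.1 hu) hA⟩
  refine ⟨2 ^ m * 2 ^ (m + 1) * ((1 + ‖φ.lam‖) ^ m * (A / δ * ‖φ.lam‖)), by positivity,
    fun s s0 s1 F => ?_⟩
  have b' := b1.comp (s • φ.lam) (M := 1 + ‖φ.lam‖) (by linarith [norm_nonneg φ.lam])
    (by simpa using φ.norm_smul_lam s0 s1)
  refine (ST.sn_mul (l := 1) (A := s * ((1 + ‖φ.lam‖) ^ m * (A / δ * ‖φ.lam‖)))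
    (b'.mono fun z => ?_) F _ (φ.mul_apply (temp_dc hθ) s F)).trans (le_of_eq (by ring))
  have h1 : ‖(s • φ.lam) z‖ ≤ s * (‖φ.lam‖ * (1 + ‖z‖)) := by
    rw [ContinuousLinearMap.smul_apply, norm_smul, Real.norm_of_nonneg s0]
    gcongr
    exact (φ.lam.le_opNorm z).trans (by gcongr; linarith)
  calc _ ≤ (1 + ‖φ.lam‖) ^ m * (A / δ * (s * (‖φ.lam‖ * (1 + ‖z‖)))) := by gcongr
    _ = _ := by ring

variable {φ} {Λ : 𝓢(Y, ℂ) →L[ℂ] G} {χ : (B → ℝ) → ℂ}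

omit [DecidableEq B] in
lemma Off.congr (h : φ.Off Λ) {f g : 𝓢(Y, ℂ)} (e : ∀ y, φ.lam y = 0 → ∀ᶠ z in 𝓝 y, f z = g z) :
    Λ f = Λ g :=
  sub_eq_zero.1 ((map_sub Λ f g).symm.trans (h _ fun y hy =>
    notMem_tsupport_iff_eventuallyEq.2 ((e y hy).mono fun _ hz => sub_eq_zero.2 hz)))

omit [DecidableEq B] in
lemma near (h1 : ∀ᶠ u in 𝓝 (0 : B → ℝ), χ u = 1) (s : ℝ) {y : Y} (hy : φ.lam y = 0) :
    ∀ᶠ z in 𝓝 y, χ (s • φ.lam z) = 1 :=
  ((φ.lam.continuous.const_smul s).tendsto' _ _ (by simp [hy])).eventually h1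

omit [DecidableEq B] in
lemma ex_cut : ∃ χ : (B → ℝ) → ℂ, Dc χ ∧ ∀ᶠ u in 𝓝 (0 : B → ℝ), χ u = 1 := by
  obtain ⟨χ, a, -, c, -⟩ := Ap.ex_chi_pt (x := (0 : B → ℝ)) univ_mem
  exact ⟨cx χ, dc_cx a, c.mono fun u hu => by simp [cx, hu]⟩

omit [DecidableEq B] in
/-- a distribution of order `m` kills the functions that vanish to order `m + 1` -/
lemma Off.van (h : φ.Off Λ) {C : ℝ} {m : ℕ} (hC : 0 ≤ C) (hb : ∀ f, ‖Λ f‖ ≤ C * ST.sn Y ℂ m f)
    (γ : Fin (m + 1) → B) (H f : 𝓢(Y, ℂ)) (e : ∀ y, f y = mon γ (φ.lam y) * H y) : Λ f = 0 := by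
  obtain ⟨χ, hχ, h1⟩ := ex_cut (B := B)
  obtain ⟨A, hA, b⟩ := φ.est_in hχ m γ
  have lim : Tendsto (fun s : ℝ => C * (A * s⁻¹ * ST.sn Y ℂ m H)) atTop (𝓝 0) := by
    simpa using ((tendsto_inv_atTop_zero.const_mul A).mul_const (ST.sn Y ℂ m H)).const_mul C
  refine norm_le_zero_iff.1 (ge_of_tendsto lim ((eventually_ge_atTop 1).mono fun s hs => ?_))
  rw [h.congr (g := φ.mul χ s f) fun y hy => (near h1 s hy).mono fun z hz => by
    rw [φ.mul_apply (temp_dc hχ), hz, one_mul]]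
  exact (hb _).trans (mul_le_mul_of_nonneg_left (b s hs H _ fun y => by
    rw [φ.mul_apply (temp_dc hχ), e]) hC)

variable [FiniteDimensional ℝ Y]

/-- **structure theorem** -/
theorem Off.expand (h : φ.Off Λ) {N : ℕ} (hv : ∀ (γ : Fin (N + 1) → B) (H f : 𝓢(Y, ℂ)),
      (∀ y, f y = mon γ (φ.lam y) * H y) → Λ f = 0) (χ : 𝓢(B → ℝ, ℂ))
    (h1 : ∀ᶠ u in 𝓝 (0 : B → ℝ), χ u = 1) (F : 𝓢(Y, ℂ)) :
    Λ F = ∑ k ∈ Finset.range (N + 1), ∑ γ : Fin k → B,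
      (k.factorial : ℂ)⁻¹ • Λ (φ.mul (mon γ) 1 (φ.cut χ 0 (φ.dd γ F))) := by
  obtain ⟨R, hR⟩ := φ.taylor χ N
  rw [h.congr (g := ∑ k ∈ Finset.range (N + 1), ∑ γ : Fin k → B,
      (k.factorial : ℂ)⁻¹ • φ.mul (mon γ) 1 (φ.cut χ 0 (φ.dd γ F)) +
      ∑ γ, φ.mul (mon γ) 1 (R γ F)) fun y hy => (near h1 1 hy).mono fun z hz => by
    have := hR F z
    rw [one_smul] at hz
    rw [hz, one_mul] at this
    simpa only [SchwartzMap.add_apply, SchwartzMap.sum_apply, SchwartzMap.smul_apply,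
      φ.mul_apply (temp_mon _), one_smul, smul_eq_mul] using this]
  rw [map_add, map_sum Λ (fun γ => φ.mul (mon γ) 1 (R γ F)), Finset.sum_eq_zero fun γ _ =>
    hv γ (R γ F) _ fun y => by rw [φ.mul_apply (temp_mon _), one_smul], add_zero]
  simp only [map_sum, map_smul]

variable (φ) [CompleteSpace G]

/-- the dyadic series of one piece -/
lemma glue1 (k : 𝓢(Y, ℂ) →L[ℂ] G) {θ : (B → ℝ) → ℂ} (hθ : Dc θ) (h0 : (0 : B → ℝ) ∉ tsupport θ) :
    ∃ w : 𝓢(Y, ℂ) →L[ℂ] G, ∀ F : 𝓢(Y, ℂ), φ.Away F → HasSum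
      (fun j : ℕ => k (φ.mul θ (2 ^ j) F) + k (φ.mul θ ((2 ^ (j + 1))⁻¹) F)) (w F) := by
  obtain ⟨C, m, hC, hk⟩ := ST.clm_sn_c k
  obtain ⟨r, hr⟩ := hθ.2.isCompact.isBounded.subset_closedBall 0
  obtain ⟨χ, a, -, c, -⟩ := Ap.ex_chi (isCompact_closedBall (0 : B → ℝ) r) isOpen_univ
    (subset_univ _)
  obtain ⟨R, hR⟩ := φ.taylor (sch (cx χ)) m
  have hg : Summable fun j : ℕ => ((2 : ℝ) ^ j)⁻¹ := by
    simpa only [inv_pow] using summable_geometric_of_lt_one (r := 2⁻¹) (by norm_num) (by norm_num)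
  have h1 : ∀ γ : Fin (m + 1) → B, ∃ A : 𝓢(Y, ℂ) →L[ℂ] G, ∀ H,
      HasSum (fun j : ℕ => k (φ.mul θ (2 ^ j) (φ.mul (mon γ) 1 H))) (A H) := fun γ => by
    obtain ⟨A, hA, b⟩ := φ.est_in hθ m γ
    refine exists_sum (fun j => k ∘L φ.mul θ (2 ^ j) ∘L φ.mul (mon γ) 1)
      (hg.mul_left (C * A)) (M := m) fun j H => (hk _).trans ?_
    rw [mul_assoc, mul_assoc, ← mul_assoc A]
    exact mul_le_mul_of_nonneg_left (b _ (one_le_pow₀ one_le_two) H
      (φ.mul θ (2 ^ j) (φ.mul (mon γ) 1 H)) fun y => by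
        rw [φ.mul_apply (temp_dc hθ), φ.mul_apply (temp_mon γ), one_smul]) hC
  choose A hA using h1
  obtain ⟨A', hA', b⟩ := φ.est_out hθ h0 m
  obtain ⟨A2, h2⟩ := exists_sum (fun j : ℕ => k ∘L φ.mul θ ((2 ^ (j + 1))⁻¹))
    (((summable_nat_add_iff 1).2 hg).mul_left (C * A')) (M := m + 1) fun j F => (hk _).trans (by
      rw [mul_assoc, mul_assoc, ← mul_assoc A']
      exact mul_le_mul_of_nonneg_left (b _ (by positivity)
        (inv_le_one_of_one_le₀ (one_le_pow₀ one_le_two)) F) hC)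
  refine ⟨∑ γ, A γ ∘L R γ + A2, fun F hF => ?_⟩
  rw [ContinuousLinearMap.add_apply, ContinuousLinearMap.sum_apply]
  refine HasSum.add ?_ (h2 F)
  refine (hasSum_sum fun γ (_ : γ ∈ Finset.univ) => hA γ (R γ F)).congr_fun fun j => ?_
  rw [← map_sum, ← map_sum]
  congr 1
  ext y
  have := hR F y
  simp only [φ.cut_dd_zero _ _ hF, SchwartzMap.zero_apply, mul_zero, Finset.sum_const_zero,
    zero_add, sch_apply (dc_cx a)] at this
  simp only [φ.mul_apply (temp_dc hθ), SchwartzMap.sum_apply, φ.mul_apply (temp_mon _), one_smul,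
    ← this]
  by_cases hy : θ ((2 : ℝ) ^ j • φ.lam y) = 0
  · simp [hy]
  · have h3 := hr (subset_tsupport _ hy)
    rw [mem_closedBall_zero_iff, norm_smul, Real.norm_of_nonneg (by positivity)] at h3
    have h4 : ‖φ.lam y‖ ≤ r := le_trans (le_mul_of_one_le_left (norm_nonneg _)
      (one_le_pow₀ one_le_two)) h3
    rw [cx, (c _ (mem_closedBall_zero_iff.2 h4)).self_of_nhds]
    simp

/-- **gluing over cones** -/
theorem glue {ι : Type*} (U : ι → Set (B → ℝ)) (k : ι → 𝓢(Y, ℂ) →L[ℂ] G)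
    (ho : ∀ i, IsOpen (U i)) (hc : ∀ i u (s : ℝ), 0 < s → s • u ∈ U i → u ∈ U i)
    (h0 : ∀ i, (0 : B → ℝ) ∉ U i) (hcov : ∀ u, u ≠ 0 → ∃ i, u ∈ U i)
    (hk : ∀ i j (F : 𝓢(Y, ℂ)), HasCompactSupport F → tsupport F ⊆ φ.lam ⁻¹' (U i ∩ U j) →
      k i F = k j F) :
    ∃ w : 𝓢(Y, ℂ) →L[ℂ] G, ∀ i (F : 𝓢(Y, ℂ)), tsupport F ⊆ φ.lam ⁻¹' U i → w F = k i F := by
  obtain ⟨χ, hχ, h1⟩ := ex_cut (B := B)
  have hs : ∀ {s : ℝ}, s ≠ 0 → Dc fun u => χ (s • u) := fun hs =>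
    ⟨hχ.1.comp (contDiff_const_smul _), hχ.2.comp_smul hs⟩
  have hθ : Dc fun u => χ u - χ ((2 : ℝ) • u) := dc_sub hχ (hs two_ne_zero)
  have θ0 : (0 : B → ℝ) ∉ tsupport fun u => χ u - χ ((2 : ℝ) • u) := by
    rw [notMem_tsupport_iff_eventuallyEq]
    filter_upwards [h1, ((continuous_const_smul (2 : ℝ)).tendsto' _ _ (smul_zero _)).eventually h1]
      with u a b
    simp [a, b]
  by_cases hι : Nonempty ι
  swap
  · exact ⟨0, fun i => (hι ⟨i⟩).elim⟩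
  choose! ix hix using hcov
  obtain ⟨s, η, hη, hsum⟩ := Ap.dc_split hθ (fun x => U (ix x)) fun x hx =>
    (ho _).mem_nhds (hix x fun a => θ0 (a ▸ hx))
  set θ : (B → ℝ) → (B → ℝ) → ℂ := fun x u => η x u * (χ u - χ ((2 : ℝ) • u))
  have h2 : ∀ x, ∃ w : 𝓢(Y, ℂ) →L[ℂ] G, x ∈ s → ∀ F : 𝓢(Y, ℂ), φ.Away F → HasSum (fun j : ℕ =>
      k (ix x) (φ.mul (θ x) (2 ^ j) F) + k (ix x) (φ.mul (θ x) ((2 ^ (j + 1))⁻¹) F)) (w F) :=
    fun x => by
      by_cases hx : x ∈ s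
      · exact (φ.glue1 _ (hη x hx).2.2.1 fun a => θ0 ((hη x hx).2.2.2 a).2).imp fun _ h _ => h
      · exact ⟨0, fun a => (hx a).elim⟩
  choose w hw using h2
  refine ⟨∑ x ∈ s, w x, fun i F hF => sub_eq_zero.1 (ST.vanish_of_compact
    (∑ x ∈ s, w x - k i) F fun F hc' hF' => ?_)⟩
  replace hF := hF'.trans hF
  have hA : φ.Away F := fun y hy a => h0 i (hy ▸ hF a)
  have e1 : ∀ t : ℝ, 0 < t → ∑ x ∈ s, k (ix x) (φ.mul (θ x) t F) =
      k i (φ.mul χ t F) - k i (φ.mul χ (2 * t) F) := fun t ht => by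
    rw [Finset.sum_congr rfl fun x hx => hk (ix x) i (φ.mul (θ x) t F) ?_ ?_, ← map_sum, ← map_sub]
    · congr 1
      ext y
      rw [SchwartzMap.sum_apply, Finset.sum_congr rfl fun x hx =>
        φ.mul_apply (temp_dc (hη x hx).2.2.1) t F y, ← Finset.sum_mul, ← hsum,
        SchwartzMap.sub_apply, φ.mul_apply (temp_dc hχ), φ.mul_apply (temp_dc hχ), mul_smul,
        sub_mul]
    · exact hc'.isCompact.of_isClosed_subset (isClosed_tsupport _)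
        ((SchwartzMap.tsupport_smulLeftCLM_subset _ _).trans inter_subset_left)
    · intro y hy
      have := SchwartzMap.tsupport_smulLeftCLM_subset _ _ hy
      refine ⟨hc _ _ t ht ((hη x hx).2.2.2 ?_).1, hF this.1⟩
      exact closure_minimal (t := (fun z => t • φ.lam z) ⁻¹' tsupport (θ x))
        (fun z hz => subset_tsupport (θ x) hz) ((isClosed_tsupport _).preimage (φ.lam.continuous.const_smul t)) this.2
  have e2 := (hasSum_sum fun x hx => hw x hx F hA).tendsto_sum_nat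
  have e3 : ∀ n : ℕ, ∑ j ∈ Finset.range n, ∑ x ∈ s, (k (ix x) (φ.mul (θ x) (2 ^ j) F) +
      k (ix x) (φ.mul (θ x) ((2 ^ (j + 1))⁻¹) F)) =
      k i (φ.mul χ (2 ^ n)⁻¹ F) - k i (φ.mul χ (2 ^ n) F) := fun n => by
    induction n with
    | zero => simp
    | succ n ih =>
      rw [Finset.sum_range_succ, ih, Finset.sum_add_distrib, e1 _ (by positivity),
        e1 _ (by positivity), ← pow_succ', show 2 * ((2 : ℝ) ^ (n + 1))⁻¹ = (2 ^ n)⁻¹ by
          field_simp; ring]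
      abel
  simp only [e3] at e2
  have hK := hc'.isCompact.image φ.lam.continuous
  have e4 : ∀ᶠ n : ℕ in atTop, φ.mul χ (2 ^ n)⁻¹ F = F ∧ φ.mul χ (2 ^ n) F = 0 := by
    obtain ⟨R, hR⟩ := hK.isBounded.subset_closedBall 0
    obtain ⟨ρ, hρ, hb⟩ := Metric.eventually_nhds_iff_ball.1 h1
    obtain ⟨δ, hδ, hd⟩ := Metric.isOpen_iff.1 hK.isClosed.isOpen_compl 0
      fun ⟨y, a, b⟩ => hA y b a
    obtain ⟨r, hr⟩ := hχ.2.isCompact.isBounded.subset_closedBall 0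
    have l := tendsto_pow_atTop_atTop_of_one_lt (one_lt_two (α := ℝ))
    filter_upwards [l.eventually_gt_atTop (R / ρ), l.eventually_gt_atTop (r / δ)] with n a b
    have p : (0 : ℝ) < 2 ^ n := by positivity
    refine ⟨SchwartzMap.ext fun y => ?_, SchwartzMap.ext fun y => ?_⟩ <;>
      rw [φ.mul_apply (temp_dc hχ)] <;> by_cases hy : y ∈ tsupport F
    · rw [hb _ ?_, one_mul]
      have := mem_closedBall_zero_iff.1 (hR ⟨y, hy, rfl⟩)
      rw [mem_ball_zero_iff, norm_smul, Real.norm_of_nonneg (by positivity), inv_mul_lt_iff₀ p]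
      rw [div_lt_iff₀ hρ] at a
      linarith
    · rw [image_eq_zero_of_notMem_tsupport hy, mul_zero]
    · rw [image_eq_zero_of_notMem_tsupport (f := χ) fun h => ?_, zero_mul, SchwartzMap.zero_apply]
      have h5 := mem_closedBall_zero_iff.1 (hr h)
      have h6 : δ ≤ ‖φ.lam y‖ := not_lt.1 fun h => hd (mem_ball_zero_iff.2 h) ⟨y, hy, rfl⟩
      rw [norm_smul, Real.norm_of_nonneg p.le] at h5
      rw [div_lt_iff₀ hδ] at b
      nlinarith
    · rw [image_eq_zero_of_notMem_tsupport hy, mul_zero, SchwartzMap.zero_apply]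
  rw [ContinuousLinearMap.sub_apply, ContinuousLinearMap.sum_apply, sub_eq_zero]
  refine tendsto_nhds_unique e2 (tendsto_const_nhds.congr' (e4.mono fun n hn => ?_))
  simp only [hn.1, hn.2, map_zero, sub_zero]

end Fr

end Vale.Agent.P352Y
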