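import Vale.Agent.P352Y.W0

/-!
# P352Y, step 6: multiplets of distributions in three points, symmetrisation
-/

set_option linter.all false

noncomputable section

open Filter Topology Set Metric
open scoped SchwartzMap

namespace Vale.Agent.P352Y

open Vale.Agent.P352 Vale.Agent.P352.GF Vale.Agent.P352X Api4
open Ap (Cc)

/-- multiplets of distributions in three points -/
abbrev M3 := I2 → I2 → I2 → S3 →L[ℂ] ℂ

open ContinuousLinearMap (fst snd) in
def e12 : (V × V × V) ≃L[ℝ] V × V × V :=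
  .equivOfInverse ((fst ℝ V V ∘L snd ℝ V _).prod ((fst ℝ V _).prod (snd ℝ V V ∘L snd ℝ V _)))
    ((fst ℝ V V ∘L snd ℝ V _).prod ((fst ℝ V _).prod (snd ℝ V V ∘L snd ℝ V _)))
    (fun _ => rfl) fun _ => rfl

def e23 : (V × V × V) ≃L[ℝ] V × V × V :=
  (ContinuousLinearEquiv.refl ℝ V).prodCongr (ContinuousLinearEquiv.prodComm ℝ V V)

def s1 : S3 →L[ℂ] S3 := SchwartzMap.compCLMOfContinuousLinearEquiv ℂ e12
def s2 : S3 →L[ℂ] S3 := SchwartzMap.compCLMOfContinuousLinearEquiv ℂ e23

lemma s1_apply (F : S3) (x y z : V) : s1 F (x, y, z) = F (y, x, z) := rfl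
lemma s2_apply (F : S3) (x y z : V) : s2 F (x, y, z) = F (x, z, y) := rfl

variable {s : ℝ} {L : Ix → V}

/-- the pull back by a similitude -/
def sim3 (hs : 0 < s) (hL : IsLor L) (a : V) : S3 →L[ℂ] S3 :=
  SchwartzMap.compCLMOfContinuousLinearEquiv ℂ
    ((Str.sl hs hL).prodCongr ((Str.sl hs hL).prodCongr (Str.sl hs hL))) ∘L
    SchwartzMap.compSubConstCLM ℂ (-(a, a, a))

lemma sim3_apply (hs : 0 < s) (hL : IsLor L) (a : V) (F : S3) (z : V × V × V) :
    sim3 hs hL a F z = F (sim s L a z.1, sim s L a z.2.1, sim s L a z.2.2) := by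
  show F ((Str.sl hs hL z.1, Str.sl hs hL z.2.1, Str.sl hs hL z.2.2) - -(a, a, a)) = _
  rw [Str.sl_apply, Str.sl_apply, Str.sl_apply, sim_zero a, sim_zero a z.2.1, sim_zero a z.2.2,
    sub_neg_eq_add]
  rfl

def p1 (t : M3) : M3 := fun I J K => t J I K ∘L s1
def p2 (t : M3) : M3 := fun I J K => t I K J ∘L s2
def q1 (t : M3) : M3 := fun I J K => t I.swap J K

/-- covariance under one similitude -/
def Cv (hs : 0 < s) (hL : IsLor L) (a : V) (t : M3) (F : S3) : Prop := ∀ I J K, t I J K F =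
  ∑ I', ∑ J', ∑ K', L2 L I' I * L2 L J' J * L2 L K' K * t I' J' K' (sim3 hs hL a F)

variable {hs : 0 < s} {hL : IsLor L} {a : V} {t t' u : M3} {F : S3}

lemma Cv.p1 (h : Cv hs hL a t (s1 F)) : Cv hs hL a (p1 t) F := fun I J K => by
  refine (h J I K).trans (Finset.sum_comm.trans (Finset.sum_congr rfl fun I' _ =>
    Finset.sum_congr rfl fun J' _ => Finset.sum_congr rfl fun K' _ => ?_))
  rw [mul_comm (L2 L J' J), show sim3 hs hL a (s1 F) = s1 (sim3 hs hL a F) from
    SchwartzMap.ext fun z => (sim3_apply _ _ _ _ _).trans (sim3_apply hs hL a F (e12 z)).symm]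
  rfl

lemma Cv.p2 (h : Cv hs hL a t (s2 F)) : Cv hs hL a (p2 t) F := fun I J K => by
  refine (h I K J).trans (Finset.sum_congr rfl fun I' _ => Finset.sum_comm.trans
    (Finset.sum_congr rfl fun J' _ => Finset.sum_congr rfl fun K' _ => ?_))
  rw [mul_right_comm (L2 L I' I), show sim3 hs hL a (s2 F) = s2 (sim3 hs hL a F) from
    SchwartzMap.ext fun z => (sim3_apply _ _ _ _ _).trans (sim3_apply hs hL a F (e23 z)).symm]
  rfl

lemma Cv.q1 (h : Cv hs hL a t F) : Cv hs hL a (q1 t) F := fun I J K => by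
  refine (h I.swap J K).trans (((Equiv.prodComm Ix Ix).sum_comp _).symm.trans
    (Finset.sum_congr rfl fun I' _ => ?_))
  rw [show L2 L (Equiv.prodComm Ix Ix I') I.swap = L2 L I' I from congrArg _ (mul_comm _ _)]
  rfl

lemma Cv.add (h : Cv hs hL a t F) (h' : Cv hs hL a t' F) : Cv hs hL a (t + t') F := fun I J K => by
  simp only [Pi.add_apply, ContinuousLinearMap.add_apply, mul_add, Finset.sum_add_distrib]
  rw [← h, ← h']

lemma Cv.smul (h : Cv hs hL a t F) (c : ℂ) : Cv hs hL a (c • t) F := fun I J K => by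
  simp only [Pi.smul_apply, ContinuousLinearMap.smul_apply, smul_eq_mul, mul_left_comm _ c,
    ← Finset.mul_sum]
  rw [← h]

/-- agreement on a set -/
def Ag (U : Set (V × V × V)) (t t' : M3) : Prop :=
  ∀ I J K (F : S3), tsupport F ⊆ U → t I J K F = t' I J K F

variable {U : Set (V × V × V)}

lemma Ag.p1 (h : Ag U t t') : Ag (e12 ⁻¹' U) (p1 t) (p1 t') := fun I J K F hF =>
  h J I K _ fun z hz => hF (tsupport_comp e12.continuous (fun _ a => a) hz)

lemma Ag.p2 (h : Ag U t t') : Ag (e23 ⁻¹' U) (p2 t) (p2 t') := fun I J K F hF =>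
  h I K J _ fun z hz => hF (tsupport_comp e23.continuous (fun _ a => a) hz)

lemma Ag.q1 (h : Ag U t t') : Ag U (q1 t) (q1 t') := fun I J K => h I.swap J K

/-- the first point is late (`e = true`) or early (`e = false`) -/
def Rg (e : Bool) : Set (V × V × V) :=
  {z | cond e (z.2.1 - z.1) (z.1 - z.2.1) ∉ Cc ∧ cond e (z.2.2 - z.1) (z.1 - z.2.2) ∉ Cc}

lemma Rg_23 (e : Bool) : e23 ⁻¹' Rg e = Rg e := Set.ext fun _ => and_comm

/-- the six regions -/
def Rr (e : Bool) (i : Fin 3) : Set (V × V × V) :=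
  ![Rg e, e12 ⁻¹' Rg e, e23 ⁻¹' (e12 ⁻¹' Rg e)] i

/-- the six pieces -/
def Kk (k : Bool → M3) (e : Bool) (i : Fin 3) : M3 := ![k e, p1 (k e), p2 (p1 (k e))] i

/-- Poincare covariant extensions of the pieces -/
structure Good (k : Bool → M3) (t : M3) : Prop where
  ag : ∀ e i, Ag (Rr e i) t (Kk k e i)
  cv : ∀ L (hL : IsLor L) a F, Cv one_pos hL a t F

variable {k : Bool → M3}

lemma braid (t : M3) : p1 (p2 (p1 t)) = p2 (p1 (p2 t)) := rfl

lemma Good.p1 (h2 : ∀ e, p2 (k e) = k e) (h : Good k t) : Good k (p1 t) :=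
  ⟨fun e i => by
    fin_cases i
    · exact (h.ag e 1).p1
    · exact (h.ag e 0).p1
    · have := (h.ag e 2).p1
      rw [show P352Y.p1 (Kk k e 2) = Kk k e 2 from (braid _).trans (by rw [h2]; rfl),
        show e12 ⁻¹' Rr e 2 = Rr e 2 from Set.ext fun _ => and_comm] at this
      exact this, fun L hL a F => (h.cv L hL a _).p1⟩

lemma Good.p2 (h2 : ∀ e, p2 (k e) = k e) (h : Good k t) : Good k (p2 t) :=
  ⟨fun e i => by
    fin_cases i
    · have := (h.ag e 0).p2
      rw [show P352Y.p2 (Kk k e 0) = Kk k e 0 from h2 e,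
        show e23 ⁻¹' Rr e 0 = Rr e 0 from Rg_23 e] at this
      exact this
    · exact (h.ag e 2).p2
    · exact (h.ag e 1).p2, fun L hL a F => (h.cv L hL a _).p2⟩

lemma Good.q1 (h3 : ∀ e I J K, k e I.swap J K = k e I J K)
    (h4 : ∀ e I J K, k e I J.swap K = k e I J K) (h : Good k t) : Good k (q1 t) :=
  ⟨fun e i => by
    have := (h.ag e i).q1
    rwa [show P352Y.q1 (Kk k e i) = Kk k e i from ?_] at this
    funext I J K
    fin_cases i
    · exact h3 e I J K
    · exact congrArg (· ∘L s1) (h4 e J I K)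
    · exact congrArg (fun u => (u ∘L s1) ∘L s2) (h4 e K I J), fun L hL a F => (h.cv L hL a _).q1⟩

lemma Good.avg2 (h : Good k t) (h' : Good k t') : Good k ((1 / 2 : ℂ) • (t + t')) :=
  ⟨fun e i I J K F hF => by
    simp only [Pi.smul_apply, Pi.add_apply, ContinuousLinearMap.smul_apply,
      ContinuousLinearMap.add_apply, h.ag e i I J K F hF, h'.ag e i I J K F hF, smul_eq_mul]
    ring, fun L hL a F => ((h.cv L hL a F).add (h'.cv L hL a F)).smul _⟩

lemma Good.avg3 (h : Good k t) (h' : Good k t') (h'' : Good k u) :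
    Good k ((1 / 3 : ℂ) • (t + t' + u)) :=
  ⟨fun e i I J K F hF => by
    simp only [Pi.smul_apply, Pi.add_apply, ContinuousLinearMap.smul_apply,
      ContinuousLinearMap.add_apply, h.ag e i I J K F hF, h'.ag e i I J K F hF,
      h''.ag e i I J K F hF, smul_eq_mul]
    ring, fun L hL a F => (((h.cv L hL a F).add (h'.cv L hL a F)).add (h''.cv L hL a F)).smul _⟩

/-- **Symmetrisation.** -/
theorem Good.symm (h2 : ∀ e, P352Y.p2 (k e) = k e) (h3 : ∀ e I J K, k e I.swap J K = k e I J K)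
    (h4 : ∀ e I J K, k e I J.swap K = k e I J K) (h : Good k t) : ∃ u, Good k u ∧
      P352Y.p1 u = u ∧ P352Y.p2 u = u ∧ ∀ I J K, u I J K = u I.swap J K := by
  have a := h.avg2 (h.q1 h3 h4)
  have b := a.avg2 (((a.p1 h2).q1 h3 h4).p1 h2)
  have c := b.avg2 (((((b.p2 h2).p1 h2).q1 h3 h4).p1 h2).p2 h2)
  have hc : ∀ I J K : I2, (fun u : M3 => u I.swap J K = u I J K ∧ u I J.swap K = u I J K ∧
      u I J K.swap = u I J K) _ := fun I J K => by
    refine (?_ : (fun u : M3 => Good k u → u I.swap J K = u I J K ∧ u I J.swap K = u I J K ∧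
      u I J K.swap = u I J K) _) c
    refine fun _ => ⟨?_, ?_, ?_⟩ <;> ext F <;>
      simp only [P352Y.p1, P352Y.p2, P352Y.q1, Pi.smul_apply, Pi.add_apply,
        ContinuousLinearMap.smul_apply, ContinuousLinearMap.add_apply,
        ContinuousLinearMap.comp_apply, Prod.swap_swap, smul_eq_mul,
        show ∀ F, s1 (s1 F) = F from fun _ => rfl, show ∀ F, s2 (s2 F) = F from fun _ => rfl] <;>
      ring
  generalize (1 / 2 : ℂ) • (_ + _ : M3) = v at c hc
  have d := c.avg2 (c.p2 h2)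
  refine ⟨_, d.avg3 (d.p1 h2) ((d.p1 h2).p2 h2), ?_, ?_, fun I J K => ?_⟩
  · funext I J K
    ext F
    simp only [P352Y.p1, P352Y.p2, Pi.smul_apply, Pi.add_apply, ContinuousLinearMap.smul_apply,
      ContinuousLinearMap.add_apply, ContinuousLinearMap.comp_apply, smul_eq_mul,
      show ∀ F, s1 (s1 F) = F from fun _ => rfl, show ∀ F, s2 (s2 F) = F from fun _ => rfl,
      show ∀ F, s2 (s1 (s2 F)) = s1 (s2 (s1 F)) from fun _ => rfl]
    ring
  · funext I J K
    ext F
    simp only [P352Y.p1, P352Y.p2, Pi.smul_apply, Pi.add_apply, ContinuousLinearMap.smul_apply,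
      ContinuousLinearMap.add_apply, ContinuousLinearMap.comp_apply, smul_eq_mul,
      show ∀ F, s2 (s2 F) = F from fun _ => rfl]
    ring
  · ext F
    simp only [P352Y.p1, P352Y.p2, Pi.smul_apply, Pi.add_apply, ContinuousLinearMap.smul_apply,
      ContinuousLinearMap.add_apply, ContinuousLinearMap.comp_apply, fun I J K => (hc I J K).1,
      fun I J K => (hc I J K).2.1, fun I J K => (hc I J K).2.2]

end Vale.Agent.P352Y
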