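import Vale.Agent.P352Y.T3A

/-!
# P352Y, step 6: the kernels of the six pieces and their compatibility
-/

set_option linter.all false

noncomputable section

open Filter Topology Set Metric
open scoped SchwartzMap ComplexConjugate

namespace Vale.Agent.P352Y

open Vale.Agent.P352 Vale.Agent.P352.GF Vale.Agent.P352.BW Vale.Agent.P352X Api4
open UniformSpace (Completion)
open Ap (Cc)
open Vale.Agent.P352X.ST (tens)

section general

variable {E E' H : Type*} [NormedAddCommGroup E] [NormedSpace ℝ E] [NormedAddCommGroup E']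
  [NormedSpace ℝ E'] [NormedAddCommGroup H] [NormedSpace ℝ H]

/-- complex conjugation -/
def cj : 𝓢(E, ℂ) →L[ℝ] 𝓢(E, ℂ) := SchwartzMap.postcompCLM (Complex.conjCLE : ℂ →L[ℝ] ℂ)

lemma cj_apply (F : 𝓢(E, ℂ)) (x : E) : cj F x = conj (F x) := rfl

lemma cj_smul (a : ℂ) (F : 𝓢(E, ℂ)) : cj (a • F) = conj a • cj F :=
  SchwartzMap.ext fun x => map_mul conj a (F x)

lemma tsupport_cj (F : 𝓢(E, ℂ)) : tsupport (cj F) ⊆ tsupport F :=
  tsupport_comp (e := id) continuous_id fun x h => by rw [cj_apply, show F x = 0 from h, map_zero]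

lemma bd_two (A : 𝓢(E, ℂ) →L[ℝ] H) (B : 𝓢(E', ℂ) →L[ℝ] H) : ∃ (m : ℕ) (C : ℝ), ∀ f g,
    ‖A f‖ * ‖B g‖ ≤ C * sn m f * sn m g := by
  obtain ⟨C, m, hC, h⟩ := ST.clm_sn A
  obtain ⟨C', m', hC', h'⟩ := ST.clm_sn B
  refine ⟨max m m', C * C', fun f g => ?_⟩
  rw [sn_eq, sn_eq]
  have a := (h f).trans (mul_le_mul_of_nonneg_left (ST.sn_mono (le_max_left m m') f) hC)
  have b := (h' g).trans (mul_le_mul_of_nonneg_left (ST.sn_mono (le_max_right m m') g) hC')
  exact (mul_le_mul a b (norm_nonneg _) ((norm_nonneg _).trans a)).trans (le_of_eq (by ring))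

end general

lemma ker3_box (Λ : S3 →L[ℂ] ℂ) {U : Set (V × V × V)} (hU : IsOpen U)
    (h0 : ∀ A B C : Set V, A.Nonempty → B.Nonempty → C.Nonempty → A ×ˢ B ×ˢ C ⊆ U →
      ∀ f g h : Sch, tsupport f ⊆ A → tsupport g ⊆ B → tsupport h ⊆ C →
        Λ (tens f (tens g h)) = 0) {F : S3} (hF : tsupport F ⊆ U) : Λ F = 0 := by
  refine ST.ker3_local Λ F fun q hq => ?_
  obtain ⟨δ, hδ, hb⟩ := Metric.isOpen_iff.1 hU q (hF hq)
  refine ⟨δ, hδ, fun f g h _ _ _ => h0 _ _ _ (nonempty_ball.2 hδ) (nonempty_ball.2 hδ)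
    (nonempty_ball.2 hδ) ?_ f g h⟩
  rwa [ball_prod_same, ball_prod_same]

lemma open_Rg (e : Bool) : IsOpen (Rg e) := by
  cases e <;> exact (Ap.closed_Cc.isOpen_compl.preimage (by simp only [cond]; fun_prop)).inter
    (Ap.closed_Cc.isOpen_compl.preimage (by simp only [cond]; fun_prop))

lemma open_Rr (e : Bool) (i : Fin 3) : IsOpen (Rr e i) := by
  fin_cases i
  exacts [open_Rg e, (open_Rg e).preimage e12.continuous,
    ((open_Rg e).preimage e12.continuous).preimage e23.continuous]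

/-- causal order of supports -/
def Le (e : Bool) (f g : Sch) : Prop :=
  cond e (Late (tsupport f) (tsupport g)) (Late (tsupport g) (tsupport f))

lemma le_box {e : Bool} {A B C : Set V} (hB : B.Nonempty) (hC : C.Nonempty)
    (h : ∀ x ∈ A, ∀ y ∈ B, ∀ z ∈ C, (x, y, z) ∈ Rg e) {f g k : Sch} (hf : tsupport f ⊆ A)
    (hg : tsupport g ⊆ B) (hk : tsupport k ⊆ C) : Le e f g ∧ Le e f k := by
  obtain ⟨y0, hy⟩ := hB
  obtain ⟨z0, hz⟩ := hC
  cases e
  · exact ⟨fun y a x b => (h x (hf b) y (hg a) z0 hz).1, fun z a x b => (h x (hf b) y0 hy z (hk a)).2⟩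
  · exact ⟨fun x b y a => (h x (hf b) y (hg a) z0 hz).1, fun x b z a => (h x (hf b) y0 hy z (hk a)).2⟩

variable {D : Type*} [NormedAddCommGroup D] [InnerProductSpace ℂ D] {Q : Theory D}
  {T : Ix → Ix → Fld D} {wp wm : I2 → I2 → S2 →L[ℂ] Completion D} {k : Bool → M3}

/-- one component applied to the vacuum -/
def tO (hT : Q.IsStress T) (I : I2) : Sch →L[ℂ] Completion D :=
  Completion.toComplL ∘L Grp.fC (Grp.T_fld hT I.1 I.2) Q.vac

lemma tO_apply (hT : Q.IsStress T) (I : I2) (f : Sch) :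
    tO hT I f = (T I.1 I.2 (ev f) Q.vac : D) := rfl

lemma tO_swap (hT : Q.IsStress T) (I : I2) : tO hT I.swap = tO hT I :=
  ContinuousLinearMap.ext fun f => congrArg ((↑) : D → Completion D) (hT.symm _ _ _ _ ⟨f, rfl⟩)

lemma tO_perp (hT : Q.IsStress T) (I : I2) (f : Sch) : inner ℂ (om Q) (tO hT I f) = 0 :=
  (Completion.inner_coe _ _).trans (Grp.perp hT _ _ ⟨f, rfl⟩)

lemma tO_cov (hT : Q.IsStress T) {s : ℝ} {L : Ix → V} (hs : 0 < s) (hL : IsLor L) (a : V) (I : I2)
    (f : Sch) : tO hT I f = ∑ K, L2 L K I • ueC Q hs hL a (tO hT K (Grp.simS hs hL a f)) := by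
  rw [tO_apply, ← Q.U_vac s L a hs hL, Wk.cov' hT hs hL, Str.coe_sum]
  refine Finset.sum_congr rfl fun K _ => ?_
  rw [Completion.coe_smul, tO_apply, ueC_apply, ue_coe hs hL]
  rfl

/-- the kernels -/
structure KP (hT : Q.IsStress T) (wp wm : I2 → I2 → S2 →L[ℂ] Completion D) (k : Bool → M3) :
    Prop where
  tt : ∀ I J K f G, k true I J K (tens f G) = inner ℂ (tO hT I (cj f)) (wp J K G)
  ff : ∀ I J K f G, k false I J K (tens f G) = inner ℂ (wm J K (cj G)) (tO hT I f)

theorem exists_kp (hT : Q.IsStress T) (wp wm : I2 → I2 → S2 →L[ℂ] Completion D) :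
    ∃ k, KP hT wp wm k := by
  have h1 : ∀ I J K, ∃ u : S3 →L[ℂ] ℂ, ∀ f G,
      u (tens f G) = inner ℂ (tO hT I (cj f)) (wp J K G) := fun I J K => by
    obtain ⟨m, C, h⟩ := bd_two ((tO hT I).restrictScalars ℝ ∘L cj) ((wp J K).restrictScalars ℝ)
    exact Wk.kernel (LinearMap.mk₂ ℂ (fun f G => inner ℂ (tO hT I (cj f)) (wp J K G))
      (fun _ _ _ => by simp only [map_add, inner_add_left])
      (fun _ _ _ => by rw [cj_smul, map_smul, inner_smul_left, Complex.conj_conj, smul_eq_mul])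
      (fun _ _ _ => by simp only [map_add, inner_add_right])
      fun _ _ _ => by rw [map_smul, inner_smul_right, smul_eq_mul]) fun f G => (norm_inner_le_norm _ _).trans (h f G)
  have h2 : ∀ I J K, ∃ u : S3 →L[ℂ] ℂ, ∀ f G,
      u (tens f G) = inner ℂ (wm J K (cj G)) (tO hT I f) := fun I J K => by
    obtain ⟨m, C, h⟩ := bd_two ((tO hT I).restrictScalars ℝ) ((wm J K).restrictScalars ℝ ∘L cj)
    exact Wk.kernel (LinearMap.mk₂ ℂ (fun f G => inner ℂ (wm J K (cj G)) (tO hT I f))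
      (fun _ _ _ => by simp only [map_add, inner_add_right])
      (fun _ _ _ => by rw [map_smul, inner_smul_right, smul_eq_mul])
      (fun _ _ _ => by simp only [map_add, inner_add_left])
      fun _ _ _ => by rw [cj_smul, map_smul, inner_smul_left, Complex.conj_conj, smul_eq_mul])
      fun f G => (norm_inner_le_norm _ _).trans ((mul_comm _ _).trans_le (h f G))
  choose u hu using h1
  choose v hv using h2
  exact ⟨fun e => cond e u v, hu, hv⟩

/-- vacuum expectation values of three components -/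
def w3 (Q : Theory D) (T : Ix → Ix → Fld D) (I : I2) (f : Sch) (J : I2) (g : Sch) (K : I2)
    (h : Sch) : ℂ := inner ℂ Q.vac (T I.1 I.2 (ev f) (T J.1 J.2 (ev g) (T K.1 K.2 (ev h) Q.vac)))

variable {hT : Q.IsStress T} {I J K : I2} {f g h : Sch}

include hT in
lemma w3_12 (a : Late (tsupport f) (tsupport g)) (b : Late (tsupport g) (tsupport f)) :
    w3 Q T I f J g K h = w3 Q T J g I f K h := congrArg _
  (Q.loc _ _ _ _ _ (hT.bose _ _) (Grp.T_fld hT _ _) ⟨f, rfl⟩ ⟨g, rfl⟩ (Ap.sep_iff.2 ⟨a, b⟩))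

include hT in
lemma w3_23 (a : Late (tsupport g) (tsupport h)) (b : Late (tsupport h) (tsupport g)) :
    w3 Q T I f J g K h = w3 Q T I f K h J g := congrArg (fun v => inner ℂ Q.vac (T _ _ _ v))
  (Q.loc _ _ _ _ _ (hT.bose _ _) (Grp.T_fld hT _ _) ⟨g, rfl⟩ ⟨h, rfl⟩ (Ap.sep_iff.2 ⟨a, b⟩))

include hT in
lemma herm_cj (I : I2) (f : Sch) (v w : D) :
    inner ℂ (T I.1 I.2 (ev (cj f)) v) w = inner ℂ v (T I.1 I.2 (ev f) w) := by
  rw [hT.herm _ _ _ _ _ ⟨_, rfl⟩, show bar (ev (cj f)) = ev f from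
    funext fun x => Complex.conj_conj _]

namespace KP

variable (kp : KP hT wp wm k) (tp : TP2 Q T true wp) (tm : TP2 Q T false wm)
include kp tp tm

lemma p2 (e : Bool) : p2 (k e) = k e := by
  funext I J K
  refine ST.ext2 fun f G _ _ => ?_
  rw [P352Y.p2, ContinuousLinearMap.comp_apply, show s2 (tens f G) = tens f (Str.sw G) from rfl]
  cases e
  · rw [kp.ff, kp.ff, tm.swap J K (cj G) (cj (Str.sw G)) fun _ _ => rfl]
  · rw [kp.tt, kp.tt, tp.swap J K G (Str.sw G) fun _ _ => rfl]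

omit tp tm in
lemma ind1 (e : Bool) (I J K : I2) : k e I.swap J K = k e I J K :=
  ST.ext2 fun f G _ _ => by cases e <;> simp only [kp.ff, kp.tt, tO_swap]

lemma ind2 (e : Bool) (I J K : I2) : k e I J.swap K = k e I J K :=
  ST.ext2 fun f G _ _ => by cases e <;> simp only [kp.ff, kp.tt, ← tp.ind, ← tm.ind]

lemma cv (e : Bool) {s : ℝ} {L : Ix → V} (hs : 0 < s) (hL : IsLor L) (a : V) (F : S3) :
    Cv hs hL a (k e) F := fun I J K => by
  have key : k e I J K = ∑ I', ∑ J', ∑ K', (L2 L I' I * L2 L J' J * L2 L K' K) •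
      (k e I' J' K' ∘L sim3 hs hL a) := ST.ext2 fun f G _ _ => by
    have e1 : sim3 hs hL a (tens f G) = tens (Grp.simS hs hL a f) (Str.sim2 hs hL a G) :=
      SchwartzMap.ext fun z => by
        rw [sim3_apply, ST.tens_apply, ST.tens_apply, Grp.simS_apply,
          Str.sim2_apply hs hL a G z.2.1 z.2.2]
    have r : ∀ K I, conj (L2 L K I) = L2 L K I := fun _ _ => Complex.conj_ofReal _
    simp only [ContinuousLinearMap.sum_apply, ContinuousLinearMap.smul_apply,
      ContinuousLinearMap.comp_apply, e1, smul_eq_mul]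
    cases e
    · obtain ⟨κ, hκ⟩ := tm.cov s L a J K (cj G) (cj (Str.sim2 hs hL a G)) hs hL fun x y =>
        congrArg conj (Str.sim2_apply hs hL a G x y)
      simp only [kp.ff]
      rw [hκ, inner_add_left, inner_smul_left, tO_perp, mul_zero, add_zero, tO_cov hT hs hL a I f]
      simp only [inner_sum, sum_inner, inner_smul_left, inner_smul_right, map_mul, r,
        ← ueC_apply hs hL, LinearIsometry.inner_map_map, Finset.mul_sum, mul_assoc]
    · obtain ⟨κ, hκ⟩ := tp.cov s L a J K G _ hs hL (Str.sim2_apply hs hL a G)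
      simp only [kp.tt]
      rw [hκ, inner_add_right, inner_smul_right, ← inner_conj_symm _ (om Q), tO_perp, map_zero,
        mul_zero, add_zero, tO_cov hT hs hL a I (cj f),
        show Grp.simS hs hL a (cj f) = cj (Grp.simS hs hL a f) from rfl]
      simp only [sum_inner, inner_smul_left, r]
      simp only [inner_sum, inner_smul_right, ← ueC_apply hs hL, LinearIsometry.inner_map_map,
        Finset.mul_sum, mul_assoc]
  rw [key]
  simp only [ContinuousLinearMap.sum_apply, ContinuousLinearMap.smul_apply,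
    ContinuousLinearMap.comp_apply, smul_eq_mul]

lemma sym (e : Bool) : k e I J K (tens f (tens g h)) = k e I K J (tens f (tens h g)) := by
  conv_lhs => rw [← kp.p2 tp tm e]
  rw [← sw_tens g h]
  rfl

omit tm in
lemma vt (a : Late (tsupport g) (tsupport h)) :
    k true I J K (tens f (tens g h)) = w3 Q T I f J g K h := by
  rw [kp.tt, tp.fac J K g h _ (fun _ _ => rfl) a, if_pos rfl, tO_apply, Completion.inner_coe,
    herm_cj (hT := hT), w3]

omit tp in
lemma vf (a : Late (tsupport g) (tsupport h)) :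
    k false I J K (tens f (tens g h)) = w3 Q T J g K h I f := by
  rw [kp.ff, tm.fac J K (cj g) (cj h) (cj (tens g h)) (fun _ _ => map_mul conj _ _)
    (Ap.late_mono a (tsupport_cj g) (tsupport_cj h)), if_neg (by simp), tO_apply,
    Completion.inner_coe, herm_cj (hT := hT), herm_cj (hT := hT), w3]

lemma alpha {e e' : Bool} (a : Le e f g ∧ Le e f h) (b : Le e' g f ∧ Le e' g h) :
    k e I J K (tens f (tens g h)) = k e' J I K (tens g (tens f h)) := by
  cases e <;> cases e'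
  · rw [kp.sym tp tm, kp.vf tm b.2, kp.sym tp tm, kp.vf tm a.2, w3_23 (hT := hT) a.1 b.1]
  · rw [kp.vf tm b.2, kp.sym tp tm, kp.vt tp a.2]
  · rw [kp.sym tp tm, kp.vt tp b.2, kp.vf tm a.2]
  · rw [kp.vt tp b.2, kp.vt tp a.2, w3_12 (hT := hT) a.1 b.1]

end KP

/-- the compatibility of the time ordered and the anti-time ordered product -/
def Cmp (Q : Theory D) (T : Ix → Ix → Fld D) (wp wm : I2 → I2 → S2 →L[ℂ] Completion D) : Prop :=
  ∀ x y : V, mdot (x - y) (x - y) < 0 → ∃ δ > 0, ∀ (I J K : I2) (f : Sch) (G G' : S2),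
    HasCompactSupport f → HasCompactSupport G → tsupport f ⊆ ball x δ →
    tsupport G ⊆ ball (y, y) δ → (∀ z, G' z = star (G z)) →
      inner ℂ ((T I.1 I.2 (bar (ev f)) Q.vac : D) : Completion D) (wp J K G) =
        inner ℂ (wm J K G') ((T I.1 I.2 (ev f) Q.vac : D) : Completion D)

namespace KP

variable (kp : KP hT wp wm k) (tp : TP2 Q T true wp) (tm : TP2 Q T false wm)
include kp tp tm

lemma gamma (hc : Cmp Q T wp wm) : Ag (Rg true ∩ Rg false) (k true) (k false) := fun I J K F hF => by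
  refine sub_eq_zero.1 (ST.vanish_local (k true I J K - k false I J K) F fun q hq => ?_)
  by_cases e : q.2.1 = q.2.2
  · obtain ⟨δ, hδ, h⟩ := hc q.1 q.2.1 ((Ap.sp_iff (A := {q.1}) (B := {q.2.1})).2
      ⟨fun _ a _ b => a ▸ b ▸ (hF hq).1.1, fun _ a _ b => a ▸ b ▸ (hF hq).2.1⟩ _ rfl _ rfl)
    refine ⟨δ, hδ, fun u hu => ST.ker2_local _ u fun r hr => ?_⟩
    obtain ⟨ε, hε, hb⟩ := Metric.isOpen_iff.1 isOpen_ball r (hu hr)
    rw [← ball_prod_same r.1 r.2, ← ball_prod_same q.1 q.2, Set.prod_subset_prod_iff'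
      ((nonempty_ball.2 hε).prod (nonempty_ball.2 hε))] at hb
    refine ⟨ε, hε, fun f G cf cG sf sG => ?_⟩
    rw [ContinuousLinearMap.sub_apply, kp.tt, kp.ff, sub_eq_zero]
    exact h I J K f G _ cf cG (sf.trans hb.1)
      ((sG.trans hb.2).trans (by rw [show q.2 = (q.2.1, q.2.1) from Prod.ext rfl e.symm]))
      fun _ => rfl
  · obtain ⟨δ, hδ, hd⟩ := Str.late_near e
    obtain ⟨ε, hε, hb⟩ := Metric.isOpen_iff.1 ((open_Rg true).inter (open_Rg false)) q (hF hq)
    refine ⟨min δ ε, lt_min hδ hε, fun u hu => ker3_box _ isOpen_ball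
      (fun A B C nA nB nC hs f g h sf sg sh => sub_eq_zero.2 ?_) hu⟩
    have h1 := fun x a y b z c => hb (ball_subset_ball (min_le_right _ _)
      (hs (mk_mem_prod (a := x) a (mk_mem_prod (a := y) (b := z) b c))))
    have a := le_box nB nC (fun x a y b z c => (h1 x a y b z c).1) sf sg sh
    have b := le_box nB nC (fun x a y b z c => (h1 x a y b z c).2) sf sg sh
    replace hs := hs.trans (ball_subset_ball (min_le_left _ _))
    rw [← ball_prod_same, ← ball_prod_same, Set.prod_subset_prod_iff' (nA.prod (nB.prod nC)),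
      Set.prod_subset_prod_iff' (nB.prod nC)] at hs
    show k true I J K (tens f (tens g h)) = k false I J K (tens f (tens g h))
    rcases hd with d | d
    · have d := Ap.late_mono d (sg.trans hs.2.1) (sh.trans hs.2.2)
      rw [kp.vt tp d, kp.vf tm d, w3_12 (hT := hT) a.1 b.1, w3_23 (hT := hT) a.2 b.2]
    · have d := Ap.late_mono d (sh.trans hs.2.2) (sg.trans hs.2.1)
      rw [kp.sym tp tm, kp.sym tp tm false, kp.vt tp d, kp.vf tm d, w3_12 (hT := hT) a.2 b.2,
        w3_23 (hT := hT) a.1 b.1]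

lemma same (hc : Cmp Q T wp wm) (e e' : Bool) : Ag (Rg e ∩ Rg e') (k e) (k e') := by
  cases e <;> cases e'
  · exact fun _ _ _ _ _ => rfl
  · exact fun I J K F hF => (kp.gamma tp tm hc I J K F (inter_comm _ _ ▸ hF)).symm
  · exact kp.gamma tp tm hc
  · exact fun _ _ _ _ _ => rfl

/-- **compatibility of the pieces** -/
theorem compat (hc : Cmp Q T wp wm) (e e' : Bool) (i j : Fin 3) :
    Ag (Rr e i ∩ Rr e' j) (Kk k e i) (Kk k e' j) := by
  have key : ∀ e e', Ag (Rr e 0 ∩ Rr e' 1) (Kk k e 0) (Kk k e' 1) := fun e e' I J K F hF => by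
    refine sub_eq_zero.1 (ker3_box (Kk k e 0 I J K - Kk k e' 1 I J K)
      ((open_Rr e 0).inter (open_Rr e' 1))
      (fun A B C nA nB nC hs f g h sf sg sh => sub_eq_zero.2 ?_) hF)
    have h1 := fun x a y b z c => hs (mk_mem_prod (a := x) a (mk_mem_prod (a := y) (b := z) b c))
    refine (kp.alpha tp tm (le_box nB nC (fun x a y b z c => (h1 x a y b z c).1) sf sg sh)
      (le_box nA nC (fun y b x a z c => (h1 x a y b z c).2) sg sf sh)).trans ?_
    exact congrArg _ (SchwartzMap.ext fun z => mul_left_comm _ _ _)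
  have k2 : ∀ e e', Ag (Rr e 0 ∩ Rr e' 2) (Kk k e 0) (Kk k e' 2) := fun e e' => by
    have := (key e e').p2
    rwa [preimage_inter, show P352Y.p2 (Kk k e 0) = Kk k e 0 from kp.p2 tp tm e,
      show e23 ⁻¹' Rr e 0 = Rr e 0 from Rg_23 e] at this
  have k3 : ∀ e e', Ag (Rr e 1 ∩ Rr e' 2) (Kk k e 1) (Kk k e' 2) := fun e e' => by
    have := (k2 e e').p1
    rwa [preimage_inter, show P352Y.p1 (Kk k e' 2) = Kk k e' 2 from
      (braid _).trans (by rw [kp.p2 tp tm]; rfl),
      show e12 ⁻¹' Rr e' 2 = Rr e' 2 from Set.ext fun _ => and_comm] at this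
  have sy : ∀ {U U' t t'}, Ag (U ∩ U') t t' → Ag (U' ∩ U) t' t := fun h I J K F hF =>
    (h I J K F (inter_comm _ _ ▸ hF)).symm
  fin_cases i <;> fin_cases j
  exacts [kp.same tp tm hc e e', key e e', k2 e e', sy (key e' e), (kp.same tp tm hc e e').p1,
    k3 e e', sy (k2 e' e), sy (k3 e' e), (kp.same tp tm hc e e').p1.p2]

end KP

end Vale.Agent.P352Y
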