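import Vale.Agent.P352X.R.STRUCT.A

/-!
# P352Y: Taylor expansion transverse to a subspace, with continuous coefficients
-/

set_option linter.all false

noncomputable section

open Filter Topology Set MeasureTheory
open scoped SchwartzMap ContDiff LineDeriv

namespace Vale.Agent.P352Y

open Vale.Agent.P352X Vale.Agent.P352X.Api4

/-- coordinates transverse to the subspace `lam = 0` -/
structure Fr (Y B : Type*) [NormedAddCommGroup Y] [NormedSpace ℝ Y] [Fintype B] where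
  lam : Y →L[ℝ] (B → ℝ)
  sig : (B → ℝ) →L[ℝ] Y
  inv : ∀ u, lam (sig u) = u

variable {Y B G : Type*} [NormedAddCommGroup Y] [NormedSpace ℝ Y] [Fintype B] [DecidableEq B]
  [NormedAddCommGroup G] [NormedSpace ℂ G]

/-- monomials -/
def mon {k : ℕ} (γ : Fin k → B) (u : B → ℝ) : ℂ := ∏ i, (u (γ i) : ℂ)

omit [DecidableEq B] in
lemma smooth_mon {k : ℕ} (γ : Fin k → B) : ContDiff ℝ ∞ (mon γ) :=
  contDiff_prod fun i _ => Complex.ofRealCLM.contDiff.comp (contDiff_apply ℝ ℝ (γ i))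

omit [DecidableEq B] in
lemma mon_smul {k : ℕ} (γ : Fin k → B) (s : ℝ) (u : B → ℝ) :
    mon γ (s • u) = s ^ k * mon γ u := by
  simp [mon, Finset.prod_mul_distrib]

omit [DecidableEq B] in
lemma temp_mon {k : ℕ} (γ : Fin k → B) : (mon γ).HasTemperateGrowth := by
  induction k with
  | zero =>
    have : mon γ = fun _ => 1 := funext fun u => by simp [mon]
    rw [this]; exact .const _
  | succ k ih =>
    have : mon γ = (fun u => (u (γ 0) : ℂ)) * mon fun i => γ i.succ :=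
      funext fun u => by simp [mon, Fin.prod_univ_succ]
    rw [this]
    exact (temperate_clm (ContinuousLinearMap.proj (R := ℝ) (φ := fun _ => ℝ) (γ 0))).mul (ih _)

lemma temp_dc {E : Type*} [NormedAddCommGroup E] [NormedSpace ℝ E] {θ : E → ℂ} (h : Dc θ) :
    θ.HasTemperateGrowth := h.2.hasTemperateGrowth h.1

/-- integrals of families of operators on Schwartz space -/
lemma exists_clm_int {E E' X : Type*} [NormedAddCommGroup E] [NormedSpace ℝ E]
    [NormedAddCommGroup E'] [NormedSpace ℝ E'] [MeasurableSpace X] (μ : Measure X)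
    [IsFiniteMeasure μ] (T : X → 𝓢(E', ℂ) →L[ℂ] 𝓢(E, ℂ))
    (hm : ∀ g, AEStronglyMeasurable (fun x => T x g) μ)
    (hb : ∀ N, ∃ (C : ℝ) (N' : ℕ), ∀ g, ∀ᵐ x ∂μ, ST.sn E ℂ N (T x g) ≤ C * ST.sn E' ℂ N' g) :
    ∃ A : 𝓢(E', ℂ) →L[ℂ] 𝓢(E, ℂ), ∀ g z, A g z = ∫ x, T x g z ∂μ := by
  have hi : ∀ g, ST.SInt (fun x => T x g) μ := fun g => ST.SInt.of_sn (hm g) fun N =>
    (hb N).elim fun C h => h.elim fun N' h => ⟨_, integrable_const _, h g⟩
  have ha : ∀ f g, (hi (f + g)).int = (hi f).int + (hi g).int := fun f g =>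
    SchwartzMap.ext fun z => by
      simp only [SchwartzMap.add_apply, ST.SInt.int_apply, map_add]
      exact integral_add ((hi f).apply z) ((hi g).apply z)
  refine ⟨⟨⟨⟨fun g => (hi g).int, ha⟩, fun c g => SchwartzMap.ext fun z => ?_⟩,
    ST.continuous_of_sn_le (AddMonoidHom.mk' (fun g => (hi g).int) ha) fun N => ?_⟩,
    fun _ _ => rfl⟩
  · simp only [SchwartzMap.smul_apply, ST.SInt.int_apply, map_smul, RingHom.id_apply]
    exact integral_smul c _
  · obtain ⟨C, N', h⟩ := hb N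
    refine ⟨μ.real univ * |C|, N', fun g => ST.sn_le (by positivity) fun k hk n hn => ?_⟩
    refine ((hi g).seminorm_le (fun _ => rfl) k n).trans ?_
    refine (integral_mono_ae ((hi g).seminorm k n) (integrable_const (|C| * ST.sn E' ℂ N' g))
      ((h g).mono fun x hx => (ST.seminorm_le_sn hk hn _).trans (hx.trans
        (mul_le_mul_of_nonneg_right (le_abs_self C) (apply_nonneg _ _))))).trans (le_of_eq ?_)
    rw [integral_const, smul_eq_mul, mul_assoc]

namespace Fr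

variable (φ : Fr Y B)

/-- supports off the subspace -/
def Away (F : Y → ℂ) : Prop := ∀ y, φ.lam y = 0 → y ∉ tsupport F

/-- distributions that vanish off the subspace -/
def Off (Λ : 𝓢(Y, ℂ) →L[ℂ] G) : Prop := ∀ F : 𝓢(Y, ℂ), φ.Away F → Λ F = 0

/-- multiplication by `θ (s lam y)` -/
def mul (θ : (B → ℝ) → ℂ) (s : ℝ) : 𝓢(Y, ℂ) →L[ℂ] 𝓢(Y, ℂ) :=
  SchwartzMap.smulLeftCLM ℂ fun y => θ (s • φ.lam y)

omit [DecidableEq B] in
lemma mul_apply {θ : (B → ℝ) → ℂ} (h : θ.HasTemperateGrowth) (s : ℝ) (F : 𝓢(Y, ℂ)) (y : Y) :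
    φ.mul θ s F y = θ (s • φ.lam y) * F y :=
  SchwartzMap.smulLeftCLM_apply_apply (h.comp (s • φ.lam).hasTemperateGrowth) F y

/-- contraction towards the subspace -/
def Lt (t : ℝ) : Y →L[ℝ] Y := ContinuousLinearMap.id ℝ Y - (1 - t) • (φ.sig ∘L φ.lam)

omit [DecidableEq B] in
lemma Lt_apply (t : ℝ) (y : Y) : φ.Lt t y = y - (1 - t) • φ.sig (φ.lam y) := rfl

omit [DecidableEq B] in
lemma lam_Lt (t : ℝ) (y : Y) : φ.lam (φ.Lt t y) = t • φ.lam y := by
  rw [Lt_apply, map_sub, map_smul, φ.inv, sub_smul, one_smul, sub_sub_cancel]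

def bb (t : ℝ) : ℝ := 1 + ‖φ.lam‖ + |1 - t| * (‖φ.sig‖ * (1 + ‖φ.lam‖))

omit [DecidableEq B] in
lemma one_le_bb (t : ℝ) : 1 ≤ φ.bb t := by
  have : 0 ≤ ‖φ.lam‖ + |1 - t| * (‖φ.sig‖ * (1 + ‖φ.lam‖)) := by positivity
  rw [bb]; linarith

omit [DecidableEq B] in
lemma norm_J (t : ℝ) : ‖φ.lam.prod (φ.Lt t)‖ ≤ φ.bb t := by
  have h0 := φ.one_le_bb t
  refine ContinuousLinearMap.opNorm_le_bound _ (by linarith) fun y => ?_
  have h1 := φ.lam.le_opNorm y
  have h2 := φ.sig.le_opNorm (φ.lam y)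
  have h3 := norm_sub_le y ((1 - t) • φ.sig (φ.lam y))
  rw [norm_smul, Real.norm_eq_abs] at h3
  have h4 : |1 - t| * ‖φ.sig (φ.lam y)‖ ≤ |1 - t| * (‖φ.sig‖ * (1 + ‖φ.lam‖)) * ‖y‖ := by
    rw [mul_assoc, mul_assoc]
    gcongr
    refine h2.trans (mul_le_mul_of_nonneg_left ?_ (norm_nonneg _))
    nlinarith [norm_nonneg y]
  have h5 : 0 ≤ |1 - t| * (‖φ.sig‖ * (1 + ‖φ.lam‖)) * ‖y‖ := by positivity
  have h6 : 0 ≤ ‖φ.lam‖ * ‖y‖ := by positivity
  rw [ContinuousLinearMap.prod_apply, Prod.norm_def, max_le_iff, bb, Lt_apply]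
  constructor <;> nlinarith [norm_nonneg y]

omit [DecidableEq B] in
lemma le_J (t : ℝ) (y : Y) : ‖y‖ ≤ φ.bb t * ‖φ.lam.prod (φ.Lt t) y‖ := by
  set z := φ.lam.prod (φ.Lt t) y
  have h1 : ‖φ.lam y‖ ≤ ‖z‖ := norm_fst_le z
  have h2 : ‖y - (1 - t) • φ.sig (φ.lam y)‖ ≤ ‖z‖ := norm_snd_le z
  have h3 := norm_le_norm_sub_add y ((1 - t) • φ.sig (φ.lam y))
  rw [norm_smul, Real.norm_eq_abs] at h3
  have h4 : |1 - t| * ‖φ.sig (φ.lam y)‖ ≤ |1 - t| * (‖φ.sig‖ * (1 + ‖φ.lam‖)) * ‖z‖ := by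
    rw [mul_assoc, mul_assoc]
    gcongr
    refine (φ.sig.le_opNorm _).trans (mul_le_mul_of_nonneg_left ?_ (norm_nonneg _))
    nlinarith [norm_nonneg z, norm_nonneg φ.lam]
  have h6 : 0 ≤ ‖φ.lam‖ * ‖z‖ := by positivity
  rw [bb]
  nlinarith

/-- `F ↦ χ (lam y) F (Lt t y)` -/
def cut (χ : 𝓢(B → ℝ, ℂ)) (t : ℝ) : 𝓢(Y, ℂ) →L[ℂ] 𝓢(Y, ℂ) :=
  SchwartzMap.compCLM ℂ (φ.lam.prod (φ.Lt t)).hasTemperateGrowth
    ⟨1, φ.bb t, fun y => (φ.le_J t y).trans (by
      have := φ.one_le_bb t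
      rw [pow_one]; gcongr; linarith)⟩ ∘L ST.tensR χ

omit [DecidableEq B] in
lemma cut_apply (χ : 𝓢(B → ℝ, ℂ)) (t : ℝ) (F : 𝓢(Y, ℂ)) (y : Y) :
    φ.cut χ t F y = χ (φ.lam y) * F (φ.Lt t y) := rfl

omit [DecidableEq B] in
lemma sn_cut (χ : 𝓢(B → ℝ, ℂ)) (t : ℝ) (F : 𝓢(Y, ℂ)) (N : ℕ) : ST.sn Y ℂ N (φ.cut χ t F) ≤
    2 ^ N * φ.bb t ^ N * φ.bb t ^ N * (8 ^ N * ST.sn _ ℂ N χ) * ST.sn Y ℂ N F := by
  have h0 := φ.one_le_bb t
  refine (ST.sn_comp _ h0 (φ.norm_J t) h0 (φ.le_J t) (ST.tens χ F) _ (fun _ => rfl) N).trans ?_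
  rw [mul_assoc _ (8 ^ N * _)]
  gcongr
  exact ST.sn_tens χ F N

/-- transverse derivatives -/
def dd {k : ℕ} (γ : Fin k → B) : 𝓢(Y, ℂ) →L[ℂ] 𝓢(Y, ℂ) :=
  LineDeriv.iteratedLineDerivOpCLM ℂ _ fun i => φ.sig (Pi.single (γ i) 1)

lemma dd_apply {k : ℕ} (γ : Fin k → B) (F : 𝓢(Y, ℂ)) (y : Y) :
    φ.dd γ F y = iteratedFDeriv ℝ k F y fun i => φ.sig (Pi.single (γ i) 1) :=
  SchwartzMap.iteratedLineDerivOp_eq_iteratedFDeriv

lemma iter_eq (k : ℕ) (F : 𝓢(Y, ℂ)) (q : Y) (u : B → ℝ) :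
    iteratedFDeriv ℝ k F q (fun _ => φ.sig u) = ∑ γ : Fin k → B, mon γ u * φ.dd γ F q := by
  have : φ.sig u = ∑ n, u n • φ.sig (Pi.single n 1) := by
    simp only [← map_smul, ← map_sum]
    congr 1
    ext n
    simp [Pi.single_apply]
  rw [this, ContinuousMultilinearMap.map_sum]
  refine Finset.sum_congr rfl fun γ _ => ?_
  rw [ContinuousMultilinearMap.map_smul_univ, mon, dd_apply, ← Complex.ofReal_prod,
    Complex.real_smul]

lemma dd_zero {k : ℕ} (γ : Fin k → B) {F : 𝓢(Y, ℂ)} {q : Y} (h : q ∉ tsupport F) :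
    φ.dd γ F q = 0 := by
  rw [dd_apply, Function.notMem_support.1 fun a => h (support_iteratedFDeriv_subset k a)]
  rfl

/-- the jets vanish on functions supported off the subspace -/
lemma cut_dd_zero (χ : 𝓢(B → ℝ, ℂ)) {k : ℕ} (γ : Fin k → B) {F : 𝓢(Y, ℂ)} (h : φ.Away F) :
    φ.cut χ 0 (φ.dd γ F) = 0 := SchwartzMap.ext fun y => by
  rw [cut_apply, φ.dd_zero γ (h _ (by rw [lam_Lt, zero_smul])), mul_zero]
  rfl

lemma taylor_int {Φ : ℕ → ℝ → ℂ} (h : ∀ k t, HasDerivAt (Φ k) (Φ (k + 1) t) t) (m : ℕ) :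
    Φ 0 1 = ∑ k ∈ Finset.range (m + 1), (k.factorial : ℂ)⁻¹ * Φ k 0 +
      ∫ t in Ioc (0 : ℝ) 1, (((1 - t) ^ m / m.factorial : ℝ) : ℂ) * Φ (m + 1) t := by
  have key : ∀ (n : ℕ) (t : ℝ), HasDerivAt
      (fun t => ∑ k ∈ Finset.range (n + 1), ((1 - t) ^ k / k.factorial : ℝ) • Φ k t)
      (((1 - t) ^ n / n.factorial : ℝ) • Φ (n + 1) t) t := fun n t => by
    induction n with
    | zero => simpa using h 0 t
    | succ n ih =>
      simp only [Finset.sum_range_succ _ (n + 1)]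
      have d := ((((hasDerivAt_id' t).const_sub 1).fun_pow (n + 1)).div_const
        ((n + 1).factorial : ℝ)).fun_smul (h (n + 1) t)
      refine (ih.fun_add d).congr_deriv (Eq.symm ?_)
      rw [add_left_comm, ← add_smul, Nat.factorial_succ]
      convert (add_zero _).symm
      convert zero_smul ℝ _
      push_cast
      field_simp
      simp
  have hc : Continuous (Φ (m + 1)) :=
    continuous_iff_continuousAt.2 fun t => (h (m + 1) t).continuousAt
  have := intervalIntegral.integral_eq_sub_of_hasDerivAt (a := 0) (b := 1) (fun t _ => key m t)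
    (Continuous.intervalIntegrable (by fun_prop) _ _)
  rw [intervalIntegral.integral_of_le zero_le_one, Finset.sum_range_succ' _ m] at this
  simp only [sub_self, ne_eq, Nat.add_eq_zero_iff, one_ne_zero, and_false, not_false_eq_true,
    zero_pow, zero_div, zero_smul, Finset.sum_const_zero, pow_zero, Nat.factorial_zero,
    Nat.cast_one, div_one, one_smul, zero_add, sub_zero, one_pow, Complex.real_smul] at this
  rw [this]
  simp

variable [FiniteDimensional ℝ Y]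

omit [DecidableEq B] in
lemma continuous_cut (χ : 𝓢(B → ℝ, ℂ)) (F : 𝓢(Y, ℂ)) : Continuous fun t => φ.cut χ t F := by
  haveI := FiniteDimensional.proper ℝ Y
  refine ST.continuous_of_sn (fun N => ⟨_, ?_, fun t => φ.sn_cut χ t F N⟩) fun y => ?_
  · unfold bb; fun_prop
  · simp only [cut_apply, Lt_apply]
    exact continuous_const.mul (F.continuous.comp (by fun_prop))

/-- **Taylor expansion** -/
theorem taylor (χ : 𝓢(B → ℝ, ℂ)) (N : ℕ) :
    ∃ R : (Fin (N + 1) → B) → 𝓢(Y, ℂ) →L[ℂ] 𝓢(Y, ℂ), ∀ (F : 𝓢(Y, ℂ)) (y : Y),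
      χ (φ.lam y) * F y = ∑ k ∈ Finset.range (N + 1), ∑ γ : Fin k → B,
        (k.factorial : ℂ)⁻¹ * (mon γ (φ.lam y) * φ.cut χ 0 (φ.dd γ F) y) +
        ∑ γ, mon γ (φ.lam y) * R γ F y := by
  obtain ⟨A, hA⟩ := exists_clm_int (volume.restrict (Ioc (0 : ℝ) 1))
    (fun t => (((1 - t) ^ N / N.factorial : ℝ) : ℂ) • φ.cut χ t)
    (fun g => (Continuous.smul (f := fun t : ℝ => (((1 - t) ^ N / N.factorial : ℝ) : ℂ))
      (by fun_prop) (φ.continuous_cut χ g)).aestronglyMeasurable)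
    fun n => ⟨2 ^ n * φ.bb 0 ^ n * φ.bb 0 ^ n * (8 ^ n * ST.sn _ ℂ n χ), n, fun g => by
      refine (ae_restrict_mem measurableSet_Ioc).mono fun t ht => (ST.sn_smul _ _ n).trans ?_
      have h1 : ‖(((1 - t) ^ N / N.factorial : ℝ) : ℂ)‖ ≤ 1 := by
        rw [Complex.norm_real, norm_div, norm_pow, Real.norm_of_nonneg (by linarith [ht.2]),
          Real.norm_natCast, div_le_one (by exact_mod_cast N.factorial_pos)]
        exact (pow_le_one₀ (by linarith [ht.2]) (by linarith [ht.1])).trans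
          (by exact_mod_cast N.factorial_pos)
      have h2 : φ.bb t ≤ φ.bb 0 := by
        have : |1 - t| ≤ |1 - (0 : ℝ)| := by
          rw [abs_of_nonneg (by linarith [ht.2]), sub_zero, abs_one]
          linarith [ht.1]
        unfold bb
        gcongr
      have h3 := φ.one_le_bb t
      have h4 := φ.one_le_bb 0
      refine (mul_le_of_le_one_left (apply_nonneg _ _) h1).trans ((φ.sn_cut χ t g n).trans ?_)
      gcongr⟩
  refine ⟨fun γ => A ∘L φ.dd γ, fun F y => ?_⟩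
  set v := φ.sig (φ.lam y)
  obtain ⟨y0, e⟩ : ∃ y0, ∀ t, φ.Lt t y = y0 + t • v := ⟨y - v, fun t => by
    simp only [Lt_apply, sub_smul, one_smul, v]; abel⟩
  have hd : ∀ k t, HasDerivAt (fun t => χ (φ.lam y) * iteratedFDeriv ℝ k F (φ.Lt t y) fun _ => v)
      (χ (φ.lam y) * iteratedFDeriv ℝ (k + 1) F (φ.Lt t y) fun _ => v) t := fun k t => by
    simp only [e]
    have d := ((F.smooth ⊤).differentiable_iteratedFDeriv (m := k)
      (by exact_mod_cast WithTop.coe_lt_top (k : ℕ)) _).hasFDerivAt.comp_hasDerivAt t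
      (((hasDerivAt_id' t).smul_const v).const_add y0)
    have d' := (ContinuousMultilinearMap.apply ℝ (fun _ : Fin k => Y) ℂ
      fun _ => v).hasFDerivAt.comp_hasDerivAt t d
    rw [one_smul] at d'
    exact d'.const_mul (χ (φ.lam y))
  have := taylor_int hd N
  have e1 : φ.Lt 1 y = y := by simp [Lt_apply]
  simp only [iteratedFDeriv_zero_apply, e1] at this
  rw [this]
  congr 1
  · refine Finset.sum_congr rfl fun k _ => ?_
    rw [iter_eq, Finset.mul_sum, Finset.mul_sum]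
    exact Finset.sum_congr rfl fun γ _ => by rw [cut_apply]; ring
  · simp only [ContinuousLinearMap.comp_apply, hA, ← integral_const_mul, v, iter_eq,
      Finset.mul_sum]
    rw [integral_finset_sum]
    · refine Finset.sum_congr rfl fun γ _ => integral_congr_ae (Eventually.of_forall fun t => ?_)
      simp only [ContinuousLinearMap.smul_apply, SchwartzMap.smul_apply, cut_apply, smul_eq_mul]
      ring
    · intro γ _
      refine Continuous.integrableOn_Ioc (Continuous.mul (by fun_prop) (continuous_const.mul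
        (continuous_const.mul ((φ.dd γ F).continuous.comp ?_))))
      simp only [Lt_apply]; fun_prop

end Fr

end Vale.Agent.P352Y
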