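import Vale.Agent.P352Y.WhA

/-!
# P352Y: the first cohomology of the Lorentz group vanishes
-/

set_option linter.all false

noncomputable section

namespace Vale.Agent.P352Y

open Vale.Agent.P352 Vale.Agent.P352.GF
open Vale.Agent.P352.H246 (linv isLor_linv)

namespace Wh

variable {γ : ℝ → Ix → V} {X g : Ix → V} {a b : Ix}

/-- curves through the identity -/
def Cv (γ : ℝ → Ix → V) (X : Ix → V) : Prop :=
  (∀ t, IsLor (γ t)) ∧ γ 0 = GF.one ∧ HasDerivAt γ X 0

lemma cv_gg (h : a ≠ b) : Cv (gg a b) (XX a b) := ⟨lor_gg h, gg_zero a b, gg_der a b⟩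

lemma ex_cv (a b : Ix) : ∃ γ, Cv γ (XX a b) := by
  by_cases h : a = b
  · exact ⟨fun _ => GF.one, fun _ => H496.isLor_one, rfl, by
      rw [h, XX_self]
      exact hasDerivAt_const _ _⟩
  · exact ⟨_, cv_gg h⟩

lemma Cv.tr (h : Cv γ X) : Cv (fun t m n => γ t n m) fun m n => X n m :=
  ⟨fun t => lor_tr (h.1 t), by
    ext m n
    simp [h.2.1, GF.one, bas, eq_comm],
    hasDerivAt_pi.2 fun m => hasDerivAt_pi.2 fun n => hasDerivAt_pi.1 (hasDerivAt_pi.1 h.2.2 n) m⟩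

lemma Cv.conj (h : Cv γ (XX a b)) (hg : IsLor g) :
    Cv (fun t => mulL g (mulL (γ t) (linv g))) (Mx (g a) (g b)) := by
  refine ⟨fun t => lor_mul hg (lor_mul (h.1 t) (isLor_linv hg)), by
    simp only [h.2.1, one_mulL, mul_linv hg], ?_⟩
  rw [← mulL_one (Mx _ _), ← mul_linv hg, ← mulL_assoc, ← mul_XX hg, mulL_assoc]
  refine hasDerivAt_pi.2 fun m => hasDerivAt_pi.2 fun n => ?_
  simp only [mulL_apply]
  exact HasDerivAt.fun_sum fun k _ => (HasDerivAt.fun_sum fun l _ =>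
    (hasDerivAt_pi.1 (hasDerivAt_pi.1 h.2.2 l) k).const_mul _).mul_const _

lemma Cv.der {E : Type*} [NormedAddCommGroup E] [NormedSpace ℝ E] {f : (Ix → V) → E} (h : Cv γ X)
    (hf : DifferentiableAt ℝ f GF.one) :
    HasDerivAt (fun t => f (γ t)) (fderiv ℝ f GF.one X) 0 :=
  HasFDerivAt.comp_hasDerivAt_of_eq 0 hf.hasFDerivAt h.2.2 h.2.1.symm

lemma contr {Z : Type*} [AddCommGroup Z] [Module ℝ Z] (hg : IsLor g) (β : V →ₗ[ℝ] V →ₗ[ℝ] Z) :
    ∑ a, GF.eta a • β (g a) (g a) = ∑ a, GF.eta a • β (bas a 1) (bas a 1) := by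
  have e : ∀ v : V, v = ∑ m, v m • bas m 1 := fun v => by
    ext n
    simp [bas, Finset.sum_apply]
  calc _ = ∑ a, ∑ m, ∑ n, (GF.eta a * g a m * g a n) • β (bas m 1) (bas n 1) := by
        refine Finset.sum_congr rfl fun a _ => ?_
        conv_lhs => rw [e (g a)]
        simp only [map_sum, map_smul, LinearMap.sum_apply, LinearMap.smul_apply, Finset.smul_sum,
          smul_smul]
        rw [Finset.sum_comm]
        exact Finset.sum_congr rfl fun _ _ => Finset.sum_congr rfl fun _ _ => by ring_nf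
    _ = ∑ m, ∑ n, bas m (GF.eta m) n • β (bas m 1) (bas n 1) := by
        rw [Finset.sum_comm]
        refine Finset.sum_congr rfl fun m _ => ?_
        rw [Finset.sum_comm]
        simp only [← Finset.sum_smul, lor_transpose hg]
    _ = _ := by simp [bas]

def MxL : V →ₗ[ℝ] V →ₗ[ℝ] Ix → V :=
  LinearMap.mk₂ ℝ Mx (fun _ _ _ => by ext; simp [Mx]; ring) (fun _ _ _ => by ext; simp [Mx]; ring)
    (fun _ _ _ => by ext; simp [Mx]; ring) fun _ _ _ => by ext; simp [Mx]; ring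

lemma contr2 {Z : Type*} [AddCommGroup Z] [Module ℝ Z] (hg : IsLor g)
    (β : (Ix → V) →ₗ[ℝ] (Ix → V) →ₗ[ℝ] Z) :
    ∑ a, ∑ b, (GF.eta a * GF.eta b) • β (Mx (g a) (g b)) (Mx (g a) (g b)) =
      ∑ a, ∑ b, (GF.eta a * GF.eta b) • β (XX a b) (XX a b) := by
  have h1 := fun u => contr hg (β.compl₁₂ (MxL u) (MxL u))
  have h2 := fun v => contr hg (β.compl₁₂ (MxL.flip v) (MxL.flip v))
  simp only [LinearMap.compl₁₂_apply, LinearMap.flip_apply, MxL, LinearMap.mk₂_apply] at h1 h2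
  calc _ = ∑ a, ∑ b, (GF.eta a * GF.eta b) • β (Mx (g a) (bas b 1)) (Mx (g a) (bas b 1)) := by
        simp only [mul_smul, ← Finset.smul_sum, h1]
    _ = _ := by
        rw [Finset.sum_comm, Finset.sum_comm (f := fun a b => _ • β (XX a b) _)]
        simp only [mul_comm (GF.eta _) (GF.eta _), mul_smul, ← Finset.smul_sum, h2, XX]

variable {W : Type*} [NormedAddCommGroup W] [InnerProductSpace ℂ W]

lemma app {E F : Type*} [NormedAddCommGroup E] [NormedSpace ℂ E] [NormedAddCommGroup F]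
    [NormedSpace ℂ F] {A : ℝ → E →L[ℂ] F} {A' : E →L[ℂ] F} {f : ℝ → E} {f' : E} {t : ℝ}
    (h : HasDerivAt A A' t) (hf : HasDerivAt f f' t) :
    HasDerivAt (fun t => A t (f t)) (A' (f t) + A t f') t :=
  ((ContinuousLinearMap.restrictScalarsL ℂ E F ℝ ℝ).hasFDerivAt.comp_hasDerivAt t h).clm_apply hf

lemma Cv.app {E F : Type*} [NormedAddCommGroup E] [NormedSpace ℂ E] [NormedAddCommGroup F]
    [NormedSpace ℂ F] {f : (Ix → V) → E →L[ℂ] F} (h : Cv γ X) (hf : DifferentiableAt ℝ f GF.one)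
    (w : E) : HasDerivAt (fun t => f (γ t) w) (fderiv ℝ f GF.one X w) 0 := by
  have := Wh.app (h.der hf) (hasDerivAt_const 0 w)
  rwa [map_zero, add_zero] at this

/-- the hypotheses -/
structure Hy (ρ : (Ix → V) → W →L[ℂ] W) (c : (Ix → V) → W) : Prop where
  r1 : ρ GF.one = 1
  rd : DifferentiableAt ℝ ρ GF.one
  cd : DifferentiableAt ℝ c GF.one
  mul : ∀ L M, IsLor L → IsLor M → ρ (mulL L M) = ρ L * ρ M
  adj : ∀ L, IsLor L → ∀ x y, inner ℂ (ρ L x) y = inner ℂ x (ρ (fun m n => L n m) y)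
  coc : ∀ L M, IsLor L → IsLor M → c (mulL L M) = ρ L (c M) + c L

/-- the Casimir operator -/
def cas (ρ : (Ix → V) → W →L[ℂ] W) (z : (Ix → V) → W) : W :=
  ∑ a, ∑ b, (GF.eta a * GF.eta b) • fderiv ℝ ρ GF.one (XX a b) (z (XX a b))

variable {ρ : (Ix → V) → W →L[ℂ] W} {c : (Ix → V) → W} (H : Hy ρ c)
include H

lemma Hy.dr (h : Cv γ X) (w : W) :
    HasDerivAt (fun t => ρ (γ t) w) (fderiv ℝ ρ GF.one X w) 0 := h.app H.rd w

lemma Hy.ad (hg : IsLor g) (a b : Ix) :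
    (∀ w, ρ g (fderiv ℝ ρ GF.one (XX a b) w) = fderiv ℝ ρ GF.one (Mx (g a) (g b)) (ρ g w)) ∧
    ρ g (fderiv ℝ c GF.one (XX a b)) =
      fderiv ℝ ρ GF.one (Mx (g a) (g b)) (c g) + fderiv ℝ c GF.one (Mx (g a) (g b)) := by
  obtain ⟨γ, h⟩ := ex_cv a b
  have h' := h.conj hg
  have e : ∀ t, mulL (mulL g (mulL (γ t) (linv g))) g = mulL g (γ t) := fun t => by
    rw [mulL_assoc, mulL_assoc, linv_mul hg, mulL_one]
  have ap : ∀ {f : ℝ → W} {f' : W}, HasDerivAt f f' 0 →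
      HasDerivAt (fun t => ρ g (f t)) (ρ g f') 0 := fun h => by
    have := app (hasDerivAt_const 0 (ρ g)) h
    rwa [ContinuousLinearMap.zero_apply, zero_add] at this
  refine ⟨fun w => (ap (H.dr h w)).unique
    ((H.dr h' (ρ g w)).congr_of_eventuallyEq (.of_forall fun t => ?_)),
    ((ap (h.der H.cd)).add_const (c g)).unique
      (((H.dr h' (c g)).fun_add (h'.der H.cd)).congr_of_eventuallyEq (.of_forall fun t => ?_))⟩
  · exact DFunLike.congr_fun (((H.mul _ _ hg (h.1 t)).symm.trans (congrArg ρ (e t).symm)).trans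
      (H.mul _ _ (h'.1 t) hg)) w
  · exact ((H.coc _ _ hg (h.1 t)).symm.trans (congrArg c (e t).symm)).trans (H.coc _ _ (h'.1 t) hg)

lemma Hy.pair (x : W) (z : (Ix → V) → W) : inner ℂ x (cas ρ z) =
    -∑ a, ∑ b, inner ℂ (fderiv ℝ ρ GF.one (XX a b) x) (z (XX a b)) := by
  simp only [cas, inner_sum, ← Finset.sum_neg_distrib]
  refine Finset.sum_congr rfl fun a _ => Finset.sum_congr rfl fun b _ => ?_
  obtain ⟨γ, h⟩ := ex_cv a b
  have h1 := (H.dr h x).inner ℂ (hasDerivAt_const 0 (z (XX a b)))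
  have h2 := (hasDerivAt_const 0 x).inner ℂ (H.dr h.tr (z (XX a b)))
  have h3 := h1.unique (h2.congr_of_eventuallyEq (.of_forall fun t => H.adj _ (h.1 t) _ _))
  rw [inner_zero_right, inner_zero_left, zero_add, add_zero, tr_XX, map_smul] at h3
  rw [h3, neg_smul, ContinuousLinearMap.neg_apply, inner_neg_right, neg_neg]
  rfl

omit H in
lemma cas_conj (hg : IsLor g) (f : (Ix → V) →ₗ[ℝ] W) : ∑ a, ∑ b, (GF.eta a * GF.eta b) •
    fderiv ℝ ρ GF.one (Mx (g a) (g b)) (f (Mx (g a) (g b))) = cas ρ f :=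
  contr2 hg (LinearMap.mk₂ ℝ (fun X Y => fderiv ℝ ρ GF.one X (f Y)) (by simp) (by simp) (by simp)
    (by simp))

/-- the Casimir operator as a linear map -/
def CC (ρ : (Ix → V) → W →L[ℂ] W) : W →ₗ[ℂ] W where
  toFun w := cas ρ fun X => fderiv ℝ ρ GF.one X w
  map_add' := by simp [cas, Finset.sum_add_distrib]
  map_smul' := by simp [cas, Finset.smul_sum, smul_comm (_ : ℝ) (_ : ℂ)]

/-- evaluation -/
def ev (ρ : (Ix → V) → W →L[ℂ] W) (w : W) : (Ix → V) →ₗ[ℝ] W where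
  toFun X := fderiv ℝ ρ GF.one X w
  map_add' := by simp
  map_smul' := by simp

lemma Hy.comm (hg : IsLor g) (w : W) : ρ g (CC ρ w) = CC ρ (ρ g w) := by
  refine .trans ?_ (cas_conj hg (ev ρ (ρ g w)))
  simp only [CC, cas, LinearMap.coe_mk, AddHom.coe_mk, map_sum, (H.ad hg _ _).1, ev,
    ContinuousLinearMap.map_smul_of_tower]

lemma Hy.comm' (hg : IsLor g) :
    ρ g (cas ρ (fderiv ℝ c GF.one)) = CC ρ (c g) + cas ρ (fderiv ℝ c GF.one) := by
  refine .trans ?_ (congrArg₂ (· + ·) (cas_conj hg (ev ρ (c g)))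
    (cas_conj hg (fderiv ℝ c GF.one).toLinearMap))
  simp only [cas, LinearMap.coe_mk, AddHom.coe_mk, map_sum, (H.ad hg _ _).1, (H.ad hg _ _).2, ev,
    ContinuousLinearMap.map_smul_of_tower, map_add, smul_add, Finset.sum_add_distrib,
    ContinuousLinearMap.coe_coe]

lemma Hy.ker {w : W} (h : CC ρ w = 0) (a b : Ix) : fderiv ℝ ρ GF.one (XX a b) w = 0 := by
  have h1 := H.pair w fun X => fderiv ℝ ρ GF.one X w
  rw [show cas ρ (fun X => fderiv ℝ ρ GF.one X w) = 0 from h, inner_zero_right, eq_comm,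
    neg_eq_zero] at h1
  simp only [inner_self_eq_norm_sq_to_K] at h1
  norm_cast at h1
  replace h1 := RCLike.ofReal_eq_zero.1 h1
  have h2 := (Finset.sum_eq_zero_iff_of_nonneg fun _ _ => Finset.sum_nonneg fun _ _ =>
    sq_nonneg _).1 h1 a (Finset.mem_univ _)
  simpa using (Finset.sum_eq_zero_iff_of_nonneg fun _ _ => sq_nonneg _).1 h2 b (Finset.mem_univ _)

lemma Hy.triv {w : W} (h : CC ρ w = 0) (hg : IsLor g) : ρ g w = w := by
  refine lor_gen (P := fun g => ρ g w = w) (fun L M hL hM h1 h2 => ?_) (fun a b t k => ?_) g hg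
  · rw [H.mul L M hL hM, ContinuousLinearMap.mul_apply, h2, h1]
  have d : ∀ s, HasDerivAt (fun t => ρ (gg a b t) w) 0 s := fun s => by
    have h1 := app (hasDerivAt_const 0 (ρ (gg a b s))) (H.dr (cv_gg k) w)
    rw [H.ker h, map_zero, ContinuousLinearMap.zero_apply, add_zero, ← sub_self s] at h1
    refine (h1.comp_sub_const s s).congr_of_eventuallyEq (.of_forall fun t => ?_)
    simp only [← ContinuousLinearMap.mul_apply, ← H.mul _ _ (lor_gg k _) (lor_gg k _), gg_add k,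
      add_sub_cancel]
  rw [is_const_of_deriv_eq_zero (fun s => (d s).differentiableAt) (fun s => (d s).deriv) t 0,
    gg_zero, H.r1, ContinuousLinearMap.one_apply]

lemma Hy.main [FiniteDimensional ℂ W] : ∃ b, ∀ L, IsLor L → c L = b - ρ L b := by
  have sy : (CC ρ).IsSymmetric := fun x y => by
    rw [← inner_conj_symm]
    refine (congrArg (starRingEnd ℂ) (H.pair y (ev ρ x))).trans
      (.trans ?_ (H.pair x (ev ρ y)).symm)
    simp only [map_neg, map_sum, inner_conj_symm]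
    rfl
  obtain ⟨b, hb⟩ : cas ρ (fderiv ℝ c GF.one) ∈ (CC ρ).range := by
    rw [← (CC ρ).range.orthogonal_orthogonal, sy.orthogonal_range]
    intro w hw
    simp [H.pair, H.ker hw]
  have k : ∀ L, IsLor L → CC ρ (c L + b - ρ L b) = 0 := fun L hL => by
    rw [map_sub, map_add, ← H.comm hL, hb, H.comm' hL, sub_self]
  have ad : ∀ L M, IsLor L → IsLor M → c (mulL L M) + b - ρ (mulL L M) b =
      (c L + b - ρ L b) + (c M + b - ρ M b) := fun L M hL hM => by
    rw [← H.triv (k M hM) hL, H.coc L M hL hM, H.mul L M hL hM, map_sub, map_add,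
      ContinuousLinearMap.mul_apply]
    abel
  have z : ∀ a b', a ≠ b' → (∀ t, mulL (gg a b' t) rr = mulL rr (gg a b' (-t))) → ∀ t,
      c (gg a b' t) + b - ρ (gg a b' t) b = 0 := fun a b' h e t => by
    have h1 := ad _ _ (lor_gg h t) lor_rr
    have h2 := ad _ _ (lor_gg h t) (lor_gg h (-t))
    have h3 := ad _ _ H496.isLor_one H496.isLor_one
    rw [e, ad _ _ lor_rr (lor_gg h _), add_comm, add_left_inj] at h1
    rw [mulL_one, left_eq_add] at h3
    rw [gg_add h, add_neg_cancel, gg_zero, h3, h1, ← two_smul ℂ] at h2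
    exact (smul_eq_zero.1 h2.symm).resolve_left two_ne_zero
  refine ⟨-b, fun L hL => ?_⟩
  have := lor_gen3 (P := fun L => c L + b - ρ L b = 0)
    (fun L M hL hM h1 h2 => by rw [ad L M hL hM, h1, h2, add_zero])
    (z _ _ (by decide) (rr_gg (by simp))) (z _ _ (by decide) (rr_gg (by simp)))
    (z _ _ (by decide) (rr_gg (by simp))) L hL
  rw [map_neg, ← sub_eq_zero, ← this]
  abel

end Wh

/-- **Whitehead's lemma** for the Lorentz group -/
theorem whitehead {W : Type*} [NormedAddCommGroup W] [InnerProductSpace ℂ W]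
    [FiniteDimensional ℂ W] (ρ : (Ix → V) → W →L[ℂ] W) (c : (Ix → V) → W) (S : Submodule ℂ W)
    (r1 : ρ GF.one = 1) (rd : DifferentiableAt ℝ ρ GF.one) (cd : DifferentiableAt ℝ c GF.one)
    (mul : ∀ L M, IsLor L → IsLor M → ρ (mulL L M) = ρ L * ρ M)
    (adj : ∀ L, IsLor L → ∀ x y, inner ℂ (ρ L x) y = inner ℂ x (ρ (fun m n => L n m) y))
    (coc : ∀ L M, IsLor L → IsLor M → c (mulL L M) = ρ L (c M) + c L)
    (hS : ∀ L, IsLor L → ∀ x ∈ S, ρ L x ∈ S) (cS : ∀ L, IsLor L → c L ∈ S) :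
    ∃ b ∈ S, ∀ L, IsLor L → c L = b - ρ L b := by
  obtain ⟨b, hb⟩ := (Wh.Hy.mk r1 rd cd mul adj coc).main
  obtain ⟨s, hs, n, hn, rfl⟩ := S.exists_add_mem_mem_orthogonal b
  refine ⟨s, hs, fun L hL => ?_⟩
  have h1 : n - ρ L n ∈ Sᗮ := sub_mem hn fun x hx =>
    (adj _ (lor_tr hL) x n).symm.trans (hn _ (hS _ (lor_tr hL) x hx))
  have e : n - ρ L n = c L - (s - ρ L s) := by
    rw [hb L hL, map_add]
    abel
  have h2 := S.inf_orthogonal_eq_bot.le ⟨e ▸ sub_mem (cS L hL) (sub_mem hs (hS L hL s hs)), h1⟩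
  exact sub_eq_zero.1 (e ▸ h2)

end Vale.Agent.P352Y
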