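import Vale.Agent.P352X.Defs

/-!
# P352Y: generators of the Lorentz group
-/

set_option linter.all false

noncomputable section

namespace Vale.Agent.P352Y

open Vale.Agent.P352 Vale.Agent.P352.GF
open Vale.Agent.P352.H246 (linv isLor_linv)

/-- the product: first `M`, then `L` -/
def mulL (L M : Ix → V) : Ix → V := fun m => sim 1 L 0 (M m)

/-- the map `x ↦ u (v.x) - v (u.x)` -/
def Mx (u v : V) : Ix → V := fun m n => GF.eta m * (v m * u n - u m * v n)

/-- the generators of the Lie algebra -/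
def XX (a b : Ix) : Ix → V := Mx (bas a 1) (bas b 1)

/-- maps of the coordinate plane `(a, b)` -/
def pln (a b : Ix) (C S : ℝ) : Ix → V := fun m n =>
  bas m 1 n + (C - 1) * (bas a 1 m * bas a 1 n + bas b 1 m * bas b 1 n) + S * XX a b m n

def cs (a b : Ix) : ℝ → ℝ := if GF.eta a * GF.eta b = 1 then Real.cos else Real.cosh

def sn (a b : Ix) : ℝ → ℝ := if GF.eta a * GF.eta b = 1 then Real.sin else Real.sinh

/-- plane rotations and coordinate boosts -/
def gg (a b : Ix) (t : ℝ) : Ix → V := pln a b (cs a b t) (sn a b t)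

variable {L M N : Ix → V} {a b : Ix} {C S C' S' s t : ℝ}

lemma mulL_apply (L M : Ix → V) (m n : Ix) : mulL L M m n = ∑ k, M m k * L k n := by
  simp [mulL, sim]

lemma mulL_eq (L M : Ix → V) : mulL L M = (Matrix.of M * Matrix.of L : Matrix Ix Ix ℝ) := by
  ext m n
  exact mulL_apply L M m n

lemma mulL_assoc (L M N : Ix → V) : mulL (mulL L M) N = mulL L (mulL M N) := by
  rw [mulL_eq, mulL_eq L M, mulL_eq L, mulL_eq M]
  exact (Matrix.mul_assoc (Matrix.of N) (Matrix.of M) (Matrix.of L)).symm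

lemma det4 (L : Ix → V) : Matrix.det L =
    L 0 0 * (L 1 1 * (L 2 2 * L 3 3 - L 2 3 * L 3 2) - L 1 2 * (L 2 1 * L 3 3 - L 2 3 * L 3 1) +
      L 1 3 * (L 2 1 * L 3 2 - L 2 2 * L 3 1)) -
    L 0 1 * (L 1 0 * (L 2 2 * L 3 3 - L 2 3 * L 3 2) - L 1 2 * (L 2 0 * L 3 3 - L 2 3 * L 3 0) +
      L 1 3 * (L 2 0 * L 3 2 - L 2 2 * L 3 0)) +
    L 0 2 * (L 1 0 * (L 2 1 * L 3 3 - L 2 3 * L 3 1) - L 1 1 * (L 2 0 * L 3 3 - L 2 3 * L 3 0) +
      L 1 3 * (L 2 0 * L 3 1 - L 2 1 * L 3 0)) -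
    L 0 3 * (L 1 0 * (L 2 1 * L 3 2 - L 2 2 * L 3 1) - L 1 1 * (L 2 0 * L 3 2 - L 2 2 * L 3 0) +
      L 1 2 * (L 2 0 * L 3 1 - L 2 1 * L 3 0)) := by
  show Matrix.det (Matrix.of L) = _
  simp [Matrix.det_succ_row_zero, Fin.sum_univ_succ, Fin.succAbove]
  ring

lemma mulL_one (L : Ix → V) : mulL L GF.one = L := by
  ext m n
  simp [mulL_apply, GF.one, bas]

lemma one_mulL (L : Ix → V) : mulL GF.one L = L := by
  ext m n
  simp [mulL_apply, GF.one, bas]

lemma lor_mul (hL : IsLor L) (hM : IsLor M) : IsLor (mulL L M) := by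
  have : mulL L M = H246.lmul M L := by
    ext m n
    exact mulL_apply L M m n
  exact this ▸ H246.isLor_lmul hM hL

lemma lor_tr (hL : IsLor L) : IsLor fun m n => L n m :=
  ⟨fun m n => lor_transpose hL m n, hL.2.1, (Matrix.det_transpose (Matrix.of L)).trans hL.2.2⟩

lemma mul_linv (hL : IsLor L) : mulL L (linv L) = GF.one := by
  ext m n
  have := lor_transpose hL m n
  calc _ = GF.eta m * ∑ k, GF.eta k * L k m * L k n := by
        simp only [mulL_apply, linv, Finset.mul_sum, mul_assoc]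
    _ = _ := by
        rw [this]
        simp only [bas, GF.one]
        split_ifs <;> simp [eta_sq]

lemma linv_mul (hL : IsLor L) : mulL (linv L) L = GF.one := by
  have := mul_linv hL
  rw [mulL_eq] at this ⊢
  have e : GF.one = (1 : Matrix Ix Ix ℝ) := by
    ext m n
    simp [GF.one, bas, Matrix.one_apply, eq_comm]
  rw [e] at this ⊢
  exact (mul_eq_one_comm (a := Matrix.of (linv L)) (b := Matrix.of L)).1 this

lemma mul_XX (hL : IsLor L) (a b : Ix) : mulL L (XX a b) = mulL (Mx (L a) (L b)) L := by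
  ext m n
  have h1 := hL.1 b m
  have h2 := hL.1 a m
  calc _ = L a n * bas b (GF.eta b) m - L b n * bas a (GF.eta a) m := by
        simp only [mulL_apply, XX, Mx, bas, mul_sub, sub_mul, Finset.sum_sub_distrib]
        congr 1 <;> split_ifs with h <;> simp [h, mul_comm]
    _ = _ := by
        rw [← h1, ← h2]
        simp only [mulL_apply, Mx, GF.mdot, Finset.mul_sum, ← Finset.sum_sub_distrib]
        exact Finset.sum_congr rfl fun _ _ => by ring

lemma tr_XX (a b : Ix) : (fun m n => XX a b n m) = -(GF.eta a * GF.eta b) • XX a b := by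
  ext m n
  fin_cases a <;> fin_cases b <;> fin_cases m <;> fin_cases n <;> simp [XX, Mx, bas, GF.eta, o]

lemma XX_self (a : Ix) : XX a a = 0 := by
  ext m n
  simp [XX, Mx]

lemma pln_mul (h : a ≠ b) : mulL (pln a b C S) (pln a b C' S') =
    pln a b (C * C' - GF.eta a * GF.eta b * (S * S')) (S * C' + C * S') := by
  ext m n
  fin_cases a <;> fin_cases b <;> first | exact absurd rfl h | skip
  all_goals
    fin_cases m <;> fin_cases n <;>
      simp [mulL_apply, Fin.sum_univ_four, pln, XX, Mx, bas, GF.eta, o] <;> ring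

lemma lor_pln (h : a ≠ b) (h1 : C ^ 2 + GF.eta a * GF.eta b * S ^ 2 = 1)
    (h2 : GF.eta a * GF.eta b ≠ 1 → 0 < C) : IsLor (pln a b C S) := by
  refine ⟨fun m n => ?_, ?_, ?_⟩
  · fin_cases a <;> fin_cases b <;> first | exact absurd rfl h | skip
    all_goals
      simp [GF.eta, o] at h1
      fin_cases m <;> fin_cases n <;>
        simp [GF.mdot, Fin.sum_univ_four, pln, XX, Mx, bas, GF.eta, o] <;> linarith
  · fin_cases a <;> fin_cases b <;> first | exact absurd rfl h | skip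
    all_goals simp [pln, XX, Mx, bas, GF.eta, o] at h2 ⊢ <;> exact h2 (by norm_num)
  · fin_cases a <;> fin_cases b <;> first | exact absurd rfl h | skip
    all_goals
      simp [GF.eta, o] at h1
      simp [det4, pln, XX, Mx, bas, GF.eta, o]
      linarith

lemma eta_mul (h : GF.eta a * GF.eta b ≠ 1) : GF.eta a * GF.eta b = -1 := by
  unfold GF.eta at h ⊢
  split_ifs at h ⊢ <;> simp at h ⊢

lemma lor_gg (h : a ≠ b) (t : ℝ) : IsLor (gg a b t) := by
  by_cases e : GF.eta a * GF.eta b = 1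
  · exact lor_pln h (by simp [cs, sn, e]) fun k => (k e).elim
  · refine lor_pln h ?_ fun _ => by simpa [cs, e] using Real.cosh_pos t
    simp only [cs, sn, if_neg e]
    rw [eta_mul e]
    linarith [Real.cosh_sq t]

lemma gg_add (h : a ≠ b) (s t : ℝ) : mulL (gg a b s) (gg a b t) = gg a b (s + t) := by
  rw [gg, gg, pln_mul h, gg]
  by_cases e : GF.eta a * GF.eta b = 1
  · simp [cs, sn, e, Real.cos_add, Real.sin_add]
  · simp only [cs, sn, if_neg e, Real.cosh_add, Real.sinh_add]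
    rw [eta_mul e]
    congr 1
    ring

lemma gg_zero (a b : Ix) : gg a b 0 = GF.one := by
  ext m n
  by_cases e : GF.eta a * GF.eta b = 1 <;> simp [gg, pln, cs, sn, e, GF.one]

lemma gg_der (a b : Ix) : HasDerivAt (gg a b) (XX a b) 0 := by
  have h1 : HasDerivAt (cs a b) 0 0 := by
    by_cases e : GF.eta a * GF.eta b = 1 <;> simp only [cs, e, if_true, if_false]
    exacts [by simpa using Real.hasDerivAt_cos 0, by simpa using Real.hasDerivAt_cosh 0]
  have h2 : HasDerivAt (sn a b) 1 0 := by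
    by_cases e : GF.eta a * GF.eta b = 1 <;> simp only [sn, e, if_true, if_false]
    exacts [by simpa using Real.hasDerivAt_sin 0, by simpa using Real.hasDerivAt_sinh 0]
  refine hasDerivAt_pi.2 fun m => hasDerivAt_pi.2 fun n => ?_
  simpa [gg, pln] using (((h1.sub_const 1).mul_const
    (bas a 1 m * bas a 1 n + bas b 1 m * bas b 1 n)).const_add (bas m 1 n)).fun_add
    (h2.mul_const (XX a b m n))

lemma row23 (t : ℝ) (L : Ix → V) (m : Ix) : mulL (gg 2 3 t) L m = ![L m 0, L m 1,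
    Real.cos t * L m 2 - Real.sin t * L m 3, Real.sin t * L m 2 + Real.cos t * L m 3] := by
  ext n
  fin_cases n <;>
    simp [mulL_apply, Fin.sum_univ_four, gg, cs, sn, pln, XX, Mx, bas, GF.eta, o] <;> ring

lemma row12 (t : ℝ) (L : Ix → V) (m : Ix) : mulL (gg 1 2 t) L m = ![L m 0,
    Real.cos t * L m 1 - Real.sin t * L m 2, Real.sin t * L m 1 + Real.cos t * L m 2, L m 3] := by
  ext n
  fin_cases n <;>
    simp [mulL_apply, Fin.sum_univ_four, gg, cs, sn, pln, XX, Mx, bas, GF.eta, o] <;> ring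

lemma row01 (t : ℝ) (L : Ix → V) (m : Ix) : mulL (gg 0 1 t) L m =
    ![Real.cosh t * L m 0 - Real.sinh t * L m 1, Real.cosh t * L m 1 - Real.sinh t * L m 0,
      L m 2, L m 3] := by
  have e : ¬ (-1 : ℝ) = 1 := by norm_num
  ext n
  fin_cases n <;>
    simp [mulL_apply, Fin.sum_univ_four, gg, cs, sn, pln, XX, Mx, bas, GF.eta, o, e] <;> ring

lemma polar (x y : ℝ) : ∃ t, Real.sin t * x + Real.cos t * y = 0 ∧
    0 ≤ Real.cos t * x - Real.sin t * y := by
  have h1 := Complex.norm_mul_cos_arg ⟨x, y⟩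
  have h2 := Complex.norm_mul_sin_arg ⟨x, y⟩
  refine ⟨-Complex.arg ⟨x, y⟩, ?_, ?_⟩ <;> rw [Real.sin_neg, Real.cos_neg]
  · simp only at h1 h2
    linear_combination (Real.sin (Complex.arg ⟨x, y⟩)) * h1 - (Real.cos (Complex.arg ⟨x, y⟩)) * h2
  · simp only at h1 h2
    refine (norm_nonneg (⟨x, y⟩ : ℂ)).trans_eq ?_
    linear_combination (Real.cos (Complex.arg ⟨x, y⟩)) * h1 + (Real.sin (Complex.arg ⟨x, y⟩)) * h2 -
      ‖(⟨x, y⟩ : ℂ)‖ * Real.sin_sq_add_cos_sq (Complex.arg ⟨x, y⟩)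

/-- two rotations and one boost generate the Lorentz group -/
theorem lor_gen3 {P : (Ix → V) → Prop}
    (mul : ∀ L M, IsLor L → IsLor M → P L → P M → P (mulL L M)) (p0 : ∀ t, P (gg 0 1 t))
    (p1 : ∀ t, P (gg 1 2 t)) (p2 : ∀ t, P (gg 2 3 t)) (L : Ix → V) (hL : IsLor L) : P L := by
  have st : ∀ a b, a ≠ b → (∀ t, P (gg a b t)) → ∀ t L, IsLor L →
      (IsLor (mulL (gg a b t) L) → P (mulL (gg a b t) L)) → P L := fun a b h p t L hL k => by
    have := mul _ _ (lor_gg h (-t)) (lor_mul (lor_gg h t) hL) (p _) (k (lor_mul (lor_gg h t) hL))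
    rwa [← mulL_assoc, gg_add h, neg_add_cancel, gg_zero, one_mulL] at this
  have og : ∀ L, IsLor L → ∀ m n, L m 0 * L n 0 - L m 1 * L n 1 - L m 2 * L n 2 - L m 3 * L n 3 =
      bas m (GF.eta m) n := fun L hL m n => by
    rw [← hL.1 m n]
    simp [GF.mdot, Fin.sum_univ_four, GF.eta, o]
    ring
  have s5 : ∀ L, IsLor L → L 0 = ![1, 0, 0, 0] → L 1 = ![0, 1, 0, 0] → L 2 3 = 0 → 0 ≤ L 2 2 →
      P L := fun L hL h0 h1 h2 h3 => by
    have a0 := og L hL 0 2
    have a1 := og L hL 1 2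
    have a2 := og L hL 2 2
    have b0 := og L hL 0 3
    have b1 := og L hL 1 3
    have b2 := og L hL 2 3
    simp [h0, h1, h2, bas, GF.eta, o] at a0 a1 b0 b1
    simp [a0, a1, b0, b1, h2, bas, GF.eta, o] at a2 b2
    have c2 : L 2 2 = 1 := by nlinarith
    have c3 : L 3 2 = 0 := by simpa [c2] using b2
    have d := hL.2.2
    simp [det4, h0, h1, h2, a0, a1, b0, b1, c2, c3] at d
    have : L = gg 0 1 0 := by
      rw [gg_zero]
      ext m n
      fin_cases m <;> fin_cases n <;> simp [GF.one, bas, h0, h1, h2, a0, a1, b0, b1, c2, c3, d]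
    exact this ▸ p0 0
  have s4 : ∀ L, IsLor L → L 0 = ![1, 0, 0, 0] → L 1 = ![0, 1, 0, 0] → P L := fun L hL h0 h1 => by
    obtain ⟨t, a, b⟩ := polar (L 2 2) (L 2 3)
    exact st 2 3 (by decide) p2 t L hL fun k => s5 _ k (by simp [row23, h0]) (by simp [row23, h1])
      (by simp [row23, a]) (by simpa [row23] using b)
  have s3 : ∀ L, IsLor L → L 0 = ![1, 0, 0, 0] → L 1 3 = 0 → P L := fun L hL h0 h1 => by
    obtain ⟨t, a, b⟩ := polar (L 1 1) (L 1 2)
    refine st 1 2 (by decide) p1 t L hL fun k => s4 _ k (by simp [row12, h0]) ?_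
    have a0 := og L hL 0 1
    have a1 := og _ k 1 1
    simp [h0, bas] at a0
    simp [row12, a, a0, h1, bas, GF.eta, o] at a1
    have : Real.cos t * L 1 1 - Real.sin t * L 1 2 = 1 := by nlinarith
    simp [row12, a, a0, h1, this]
  have s2 : ∀ L, IsLor L → L 0 = ![1, 0, 0, 0] → P L := fun L hL h0 => by
    obtain ⟨t, a, -⟩ := polar (L 1 2) (L 1 3)
    exact st 2 3 (by decide) p2 t L hL fun k => s3 _ k (by simp [row23, h0]) (by simp [row23, a])
  have s1 : ∀ L, IsLor L → L 0 2 = 0 → L 0 3 = 0 → P L := fun L hL h2 h3 => by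
    refine st 0 1 (by decide) p0 (Real.arsinh (L 0 1)) L hL fun k => s2 _ k ?_
    have a0 := og L hL 0 0
    simp [h2, h3, bas, GF.eta, o] at a0
    have : Real.cosh (Real.arsinh (L 0 1)) = L 0 0 := by
      rw [Real.cosh_arsinh, Real.sqrt_eq_iff_mul_self_eq (by positivity)
        (show 0 ≤ L 0 0 from hL.2.1.le)]
      linarith
    simp [row01, this, h2, h3, a0, mul_comm]
  have s0 : ∀ L, IsLor L → L 0 3 = 0 → P L := fun L hL h3 => by
    obtain ⟨t, a, -⟩ := polar (L 0 1) (L 0 2)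
    exact st 1 2 (by decide) p1 t L hL fun k => s1 _ k (by simp [row12, a]) (by simp [row12, h3])
  obtain ⟨t, a, -⟩ := polar (L 0 2) (L 0 3)
  exact st 2 3 (by decide) p2 t L hL fun k => s0 _ k (by simp [row23, a])

theorem lor_gen {P : (Ix → V) → Prop}
    (mul : ∀ L M, IsLor L → IsLor M → P L → P M → P (mulL L M))
    (p : ∀ a b t, a ≠ b → P (gg a b t)) (L : Ix → V) (hL : IsLor L) : P L :=
  lor_gen3 mul (fun t => p _ _ t (by decide)) (fun t => p _ _ t (by decide))
    (fun t => p _ _ t (by decide)) L hL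

/-- the rotation by `π` around the second axis -/
def rr : Ix → V := fun m n => ![1, -1, 1, -1] m * bas m 1 n

lemma lor_rr : IsLor rr := by
  refine ⟨fun m n => ?_, by simp [rr, bas, o], ?_⟩
  · fin_cases m <;> fin_cases n <;> simp [GF.mdot, Fin.sum_univ_four, rr, bas, GF.eta, o]
  · simp [det4, rr, bas]

lemma rr_gg (h : (a = 0 ∧ b = 1) ∨ (a = 1 ∧ b = 2) ∨ (a = 2 ∧ b = 3)) (t : ℝ) :
    mulL (gg a b t) rr = mulL rr (gg a b (-t)) := by
  have e : ¬ (-1 : ℝ) = 1 := by norm_num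
  ext m n
  rcases h with ⟨rfl, rfl⟩ | ⟨rfl, rfl⟩ | ⟨rfl, rfl⟩ <;> fin_cases m <;> fin_cases n <;>
    simp [mulL_apply, Fin.sum_univ_four, gg, cs, sn, pln, XX, Mx, bas, GF.eta, o, rr, e] <;> ring

end Vale.Agent.P352Y
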